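import Vale.Agent.P244.Stmt
import Vale.Agent.P244.Kit.Sm
import Vale.Agent.P255.Loc

/-!
P244 block G: definitions and linear algebra (no task; owner helper45).
`EE = ℝ¹¹ = ℝ⁶ ⊕ ℝ⁵`, `PP`, `QQ` the two projections, `b1`, `b2` the two partial inner products,
`s = b1 z z`, `r = b2 z z`, `y = yy z = s / (1 + s)`.
-/

namespace Vale.Agent.P244.G

open scoped ContDiff Topology RealInnerProductSpace
open Set Filter Vale.Agent.P255

noncomputable section

/-- The model space. -/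
abbrev EE : Type := Euc 11

/-- Bilinear forms. -/
abbrev BF : Type := EE →L[ℝ] EE →L[ℝ] ℝ

/-- The standard basis. -/
abbrev ee (i : Fin 11) : EE := EuclideanSpace.single i 1

/-- Projection onto the first six coordinates. -/
def PP : EE →L[ℝ] EE :=
  ∑ i ∈ Finset.univ.filter fun i : Fin 11 => i.val < 6,
    (EuclideanSpace.proj i : EE →L[ℝ] ℝ).smulRight (ee i)

/-- Projection onto the last five coordinates. -/
def QQ : EE →L[ℝ] EE := ContinuousLinearMap.id ℝ EE - PP

/-- Inner product of the first components. -/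
def b1 : BF := (innerSL ℝ : EE →L[ℝ] EE →L[ℝ] ℝ).bilinearComp PP PP

/-- Inner product of the second components. -/
def b2 : BF := (innerSL ℝ : EE →L[ℝ] EE →L[ℝ] ℝ).bilinearComp QQ QQ

theorem PP_apply (z : EE) (i : Fin 11) : PP z i = if i.val < 6 then z i else 0 := by
  simp only [PP, sum_apply, WithLp.ofLp_sum, Finset.sum_apply, Finset.sum_filter]
  rw [Finset.sum_eq_single i]
  · split_ifs <;> simp
  · intro j _ hj
    split_ifs <;> simp [hj.symm]
  · simp

theorem QQ_apply (z : EE) (i : Fin 11) : QQ z i = if i.val < 6 then 0 else z i := by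
  have : QQ z i = z i - PP z i := rfl
  rw [this, PP_apply]
  split_ifs <;> simp

theorem PQ_add (z : EE) : PP z + QQ z = z := by simp [QQ]

theorem b1_eq (u v : EE) : b1 u v = ⟪PP u, PP v⟫ := rfl
theorem b2_eq (u v : EE) : b2 u v = ⟪QQ u, QQ v⟫ := rfl

theorem b1_sum (u v : EE) : b1 u v = ∑ i : Fin 11, if i.val < 6 then u i * v i else 0 := by
  rw [b1_eq, PiLp.inner_apply]
  refine Finset.sum_congr rfl fun i _ => ?_
  rw [PP_apply, PP_apply]
  split_ifs <;> simp [mul_comm]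

theorem b2_sum (u v : EE) : b2 u v = ∑ i : Fin 11, if i.val < 6 then 0 else u i * v i := by
  rw [b2_eq, PiLp.inner_apply]
  refine Finset.sum_congr rfl fun i _ => ?_
  rw [QQ_apply, QQ_apply]
  split_ifs <;> simp [mul_comm]

@[simp] theorem PP_PP (z : EE) : PP (PP z) = PP z := by
  ext i
  simp only [PP_apply]
  split_ifs <;> rfl
@[simp] theorem QQ_QQ (z : EE) : QQ (QQ z) = QQ z := by
  ext i
  simp only [QQ_apply]
  split_ifs <;> rfl
@[simp] theorem PP_QQ (z : EE) : PP (QQ z) = 0 := by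
  ext i
  simp only [PP_apply, QQ_apply]
  split_ifs <;> rfl
@[simp] theorem QQ_PP (z : EE) : QQ (PP z) = 0 := by
  ext i
  simp only [PP_apply, QQ_apply]
  split_ifs <;> rfl

theorem b1_comm (u v : EE) : b1 u v = b1 v u := real_inner_comm (PP v) (PP u)
theorem b2_comm (u v : EE) : b2 u v = b2 v u := real_inner_comm (QQ v) (QQ u)
@[simp] theorem b1_P_left (u v : EE) : b1 (PP u) v = b1 u v := by simp [b1_eq]
@[simp] theorem b1_P_right (u v : EE) : b1 u (PP v) = b1 u v := by simp [b1_eq]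
@[simp] theorem b1_Q_left (u v : EE) : b1 (QQ u) v = 0 := by simp [b1_eq]
@[simp] theorem b1_Q_right (u v : EE) : b1 u (QQ v) = 0 := by simp [b1_eq]
@[simp] theorem b2_P_left (u v : EE) : b2 (PP u) v = 0 := by simp [b2_eq]
@[simp] theorem b2_P_right (u v : EE) : b2 u (PP v) = 0 := by simp [b2_eq]
@[simp] theorem b2_Q_left (u v : EE) : b2 (QQ u) v = b2 u v := by simp [b2_eq]
@[simp] theorem b2_Q_right (u v : EE) : b2 u (QQ v) = b2 u v := by simp [b2_eq]

theorem b1_self (z : EE) : b1 z z = ‖PP z‖ ^ 2 := real_inner_self_eq_norm_sq (PP z)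
theorem b2_self (z : EE) : b2 z z = ‖QQ z‖ ^ 2 := real_inner_self_eq_norm_sq (QQ z)
theorem b1_nonneg (z : EE) : 0 ≤ b1 z z := by rw [b1_self]; positivity
theorem b2_nonneg (z : EE) : 0 ≤ b2 z z := by rw [b2_self]; positivity
theorem b1_pos {z : EE} (h : PP z ≠ 0) : 0 < b1 z z := by rw [b1_self]; positivity
theorem b2_pos {z : EE} (h : QQ z ≠ 0) : 0 < b2 z z := by rw [b2_self]; positivity
theorem b1_sq_le (u v : EE) : b1 u v ^ 2 ≤ b1 u u * b1 v v := by
  rw [sq]
  exact real_inner_mul_inner_self_le (PP u) (PP v)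

theorem tr_b1 (a c : EE) : ∑ i, b1 a (ee i) * c i = b1 a c := by
  rw [b1_sum a c]
  refine Finset.sum_congr rfl fun i _ => ?_
  rw [b1_sum, Finset.sum_eq_single i]
  · split_ifs <;> simp
  · intro j _ hj
    split_ifs <;> simp [hj]
  · simp

theorem tr_b2 (a c : EE) : ∑ i, b2 a (ee i) * c i = b2 a c := by
  rw [b2_sum a c]
  refine Finset.sum_congr rfl fun i _ => ?_
  rw [b2_sum, Finset.sum_eq_single i]
  · split_ifs <;> simp
  · intro j _ hj
    split_ifs <;> simp [hj]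
  · simp

theorem tr_P : ∑ i, PP (ee i) i = 6 := by
  simp only [PP_apply, Fin.sum_univ_succ]
  simp
  norm_num

theorem tr_Q : ∑ i, QQ (ee i) i = 5 := by
  simp only [QQ_apply, Fin.sum_univ_succ]
  simp
  norm_num

theorem hasFDerivAt_b1 (z : EE) : HasFDerivAt (fun z => b1 z z) ((2 : ℝ) • b1 z) z := by
  refine (b1.hasFDerivAt_of_bilinear (hasFDerivAt_id z) (hasFDerivAt_id z)).congr_fderiv ?_
  ext v
  simp [b1_comm v z, two_mul]

theorem hasFDerivAt_b2 (z : EE) : HasFDerivAt (fun z => b2 z z) ((2 : ℝ) • b2 z) z := by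
  refine (b2.hasFDerivAt_of_bilinear (hasFDerivAt_id z) (hasFDerivAt_id z)).congr_fderiv ?_
  ext v
  simp [b2_comm v z, two_mul]

theorem contDiff_b1 : ContDiff ℝ ∞ fun z : EE => b1 z z := b1.contDiff.clm_apply contDiff_id
theorem contDiff_b2 : ContDiff ℝ ∞ fun z : EE => b2 z z := b2.contDiff.clm_apply contDiff_id

/-- The variable `y`. -/
def yy (z : EE) : ℝ := b1 z z / (1 + b1 z z)

/-- The conformal factor of the round five-sphere. -/
def sg (z : EE) : ℝ := 4 / (1 + b2 z z) ^ 2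

theorem yy_mem (z : EE) : yy z ∈ Icc (0 : ℝ) 1 := by
  have := b1_nonneg z
  exact ⟨div_nonneg this (by linarith), (div_le_one (by linarith)).2 (by linarith)⟩

theorem one_sub_yy (z : EE) : 1 - yy z = (1 + b1 z z)⁻¹ := by
  have := b1_nonneg z
  rw [yy]
  field_simp
  ring

theorem sg_pos (z : EE) : 0 < sg z := by
  have := b2_nonneg z
  rw [sg]
  positivity

/-- The general invariant bilinear form at `z`. -/
def Gm (p q h : ℝ) (z : EE) : BF := p • b1 + q • (b1 z).smulRight (b1 z) + h • b2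

@[simp] theorem Gm_apply (p q h : ℝ) (z u v : EE) :
    Gm p q h z u v = p * b1 u v + q * (b1 z u * b1 z v) + h * b2 u v := by simp [Gm]

/-- The conformal warped metric. -/
def Gc (φ β : EE → ℝ) (z : EE) : BF := Gm (Real.exp (2 * φ z)) 0 (Real.exp (2 * β z) * sg z) z

/-- The denominator of the moved variable. -/
def Dn (y l : ℝ) : ℝ := 1 - y + y * Real.exp (2 * l)

/-- The moved variable. -/
def Yf (y l : ℝ) : ℝ := y * Real.exp (2 * l) / Dn y l

theorem Dn_pos {y : ℝ} (hy : y ∈ Icc (0 : ℝ) 1) (l : ℝ) : 0 < Dn y l := by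
  have h := Real.exp_pos (2 * l)
  rcases hy.1.eq_or_lt with h0 | h0
  · simp [Dn, ← h0]
  · have := mul_pos h0 h
    rw [Dn]
    linarith [hy.2]

theorem one_sub_Yf {y : ℝ} (hy : y ∈ Icc (0 : ℝ) 1) (l : ℝ) : 1 - Yf y l = (1 - y) / Dn y l := by
  have := (Dn_pos hy l).ne'
  rw [Yf, eq_div_iff this, sub_mul, div_mul_cancel₀ _ this, Dn]
  ring

theorem Yf_mem {y : ℝ} (hy : y ∈ Icc (0 : ℝ) 1) (l : ℝ) : Yf y l ∈ Icc (0 : ℝ) 1 := by
  have h := Dn_pos hy l
  refine ⟨div_nonneg (mul_nonneg hy.1 (Real.exp_pos _).le) h.le, ?_⟩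
  have := div_nonneg (sub_nonneg.2 hy.2) h.le
  linarith [one_sub_Yf hy l]

/-- The radial speed. -/
def chi (A β B : Fn) : Fn := fun t y =>
  B t y - 2 * Real.exp (-2 * A t y) * (4 * dY A t y + 5 * dY β t y)

/-- The data: a solution and the radial flow. -/
structure Tri where
  A : Fn
  β : Fn
  B : Fn
  L : Fn

/-- The moved variable as a function of `(t, y)`. -/
def Tri.Y (D : Tri) : Fn := fun t y => Yf y (D.L t y)

/-- The equations used in block G (symmetric under `y ↦ 1 - y`). -/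
structure Dat (T : ℝ) (D : Tri) : Prop where
  pos : 0 < T
  smA : Sm (Ico 0 T) D.A
  smβ : Sm (Ico 0 T) D.β
  smB : Sm (Ico 0 T) D.B
  smL : Sm (Ico 0 T) D.L
  eqA : ∀ t ∈ Ico 0 T, ∀ y ∈ Icc (0 : ℝ) 1,
    HasDerivWithinAt (fun s => D.A s y) (rhsA D.A D.B t y) (Ico 0 T) t
  eqβ : ∀ t ∈ Ico 0 T, ∀ y ∈ Icc (0 : ℝ) 1,
    HasDerivWithinAt (fun s => D.β s y) (rhsB D.A D.β D.B t y) (Ico 0 T) t
  eqB : ∀ t ∈ Ico 0 T, ∀ y ∈ Icc (0 : ℝ) 1, dY D.B t y =
    -2 * Real.exp (-2 * D.A t y) * (4 * dY D.A t y ^ 2 + 5 * dY D.β t y ^ 2)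
  eqL : ∀ t ∈ Ico 0 T, ∀ y ∈ Icc (0 : ℝ) 1,
    HasDerivWithinAt (fun s => D.L s y) (-chi D.A D.β D.B t (D.Y t y)) (Ico 0 T) t
  posL : ∀ t ∈ Ico 0 T, ∀ y ∈ Icc (0 : ℝ) 1, 0 < 1 + 2 * (y * (1 - y)) * dY D.L t y

/-- Tangential Ricci curvature. -/
def r1 (A β : Fn) : Fn := fun t y =>
  20 - 20 * (1 - 2 * y) * dY A t y - 4 * (y * (1 - y)) * dY (dY A) t y -
    16 * (y * (1 - y)) * dY A t y ^ 2 - 10 * (1 - 2 * y) * dY β t y -
    20 * (y * (1 - y)) * dY A t y * dY β t y

/-- Radial minus tangential Ricci curvature. -/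
def r0 (A β : Fn) : Fn := fun t y =>
  4 * (dY (dY A) t y - dY A t y ^ 2) +
    5 * (dY (dY β) t y - 2 * dY A t y * dY β t y + dY β t y ^ 2)

/-- Ricci curvature of the second factor. -/
def r2 (A β : Fn) : Fn := fun t y =>
  4 * Real.exp (-2 * β t y) - Real.exp (-2 * A t y) * (12 * (1 - 2 * y) * dY β t y +
    4 * (y * (1 - y)) * dY (dY β) t y + 16 * (y * (1 - y)) * dY A t y * dY β t y +
    20 * (y * (1 - y)) * dY β t y ^ 2)

namespace Tri

variable (D : Tri)

/-- `e^{2L} (1 - Y)²`. -/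
def kc : Fn := fun t y => Real.exp (2 * D.L t y) * (1 - D.Y t y) ^ 2
/-- The radial stretching coefficient. -/
def mc : Fn := fun t y => 2 * (1 - y) ^ 2 * dY D.L t y
/-- `2 m + m² s`. -/
def mu : Fn := fun t y => 4 * (1 - y) ^ 2 * (dY D.L t y + y * (1 - y) * dY D.L t y ^ 2)
/-- `1 + m s`. -/
def Wc : Fn := fun t y => 1 + 2 * (y * (1 - y)) * dY D.L t y
/-- First coefficient of the flow. -/
def Pc : Fn := fun t y => Real.exp (2 * D.A t (D.Y t y)) * D.kc t y
/-- Second coefficient of the flow. -/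
def Qc : Fn := fun t y => D.Pc t y * D.mu t y
/-- Third coefficient of the flow. -/
def Hc : Fn := fun t y => Real.exp (2 * D.β t (D.Y t y))
/-- First Ricci coefficient. -/
def Ra : Fn := fun t y => D.kc t y * r1 D.A D.β t (D.Y t y)
/-- Second Ricci coefficient. -/
def Rb : Fn := fun t y =>
  D.Ra t y * D.mu t y - 4 * D.kc t y ^ 2 * r0 D.A D.β t (D.Y t y) * D.Wc t y ^ 2
/-- Third Ricci coefficient. -/
def Rc : Fn := fun t y => D.Hc t y * r2 D.A D.β t (D.Y t y)

/-- The Ricci flow in the chart. -/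
def Gt (t : ℝ) (z : EE) : BF := Gm (D.Pc t (yy z)) (D.Qc t (yy z)) (D.Hc t (yy z) * sg z) z

/-- The metric before the radial diffeomorphism. -/
def Gh (t : ℝ) : EE → BF :=
  Gc (fun z => D.A t (yy z) - Real.log (1 + b1 z z)) fun z => D.β t (yy z)

/-- The radial diffeomorphism. -/
def ps (t : ℝ) (z : EE) : EE := Real.exp (D.L t (yy z)) • PP z + QQ z

/-- Reflection `y ↦ 1 - y`. -/
def refl : Tri where
  A t y := D.A t (1 - y)
  β t y := D.β t (1 - y)
  B t y := -D.B t (1 - y)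
  L t y := -D.L t (1 - y)

/-- Reflection or identity. -/
def sw (a : Bool) : Tri := bif a then D.refl else D

end Tri

/-- Inversion in one or both factors. -/
def iv (a b : Bool) (z : EE) : EE :=
  (bif a then (b1 z z)⁻¹ else 1) • PP z + (bif b then (b2 z z)⁻¹ else 1) • QQ z

/-- The domain of the inversion. -/
def Dom (a b : Bool) : Set EE := {z | (a = true → PP z ≠ 0) ∧ (b = true → QQ z ≠ 0)}

end

end Vale.Agent.P244.G
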