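import Vale.Agent.P244.G.Defs

/-!
P244 G/Yf (TASK): calculus of the moved variable and chain rules.  Prefix helper names by `yf_`.
`hasDerivAt_Yf_l`, `hasDerivAt_Yf_y`: quotient rule (`HasDerivAt.div`, `Dn_pos`), `field_simp`, unfold `Dn`, `ring`.
`sm_Yf`: `ContDiffOn.div`.  `sm_comp`: `ContDiffOn.comp` with `p ↦ (p.1, Y p.1 p.2)`.
`hasT_comp`: `U = uncurry u` has the derivative `F = fderivWithin ℝ U (I ×ˢ Icc 0 1) p`; compose with `s ↦ (s, Y s)`, `s ↦ (s, y)`, `z ↦ (t, z)`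
(`HasFDerivWithinAt.comp_hasDerivWithinAt`), so `F (1, 0) = dT`, `F (0, 1) = dY` (`dT_eq`, `dY_eq`) and `F (1, Y') = F (1, 0) + Y' F (0, 1)`.
`hasFDerivAt_yy`: `hasFDerivAt_b1`, `one_sub_yy`.  `hasFDerivAt_comp_yy`: `HasDerivWithinAt.comp_hasFDerivWithinAt` with `univ`, `yy_mem`.
-/

namespace Vale.Agent.P244.G

open scoped ContDiff Topology RealInnerProductSpace
open Set Filter Vale.Agent.P255

noncomputable section

theorem yf_gen {Y L : ℝ → ℝ} {s : Set ℝ} {x y' l' : ℝ} (hy : Y x ∈ Icc (0 : ℝ) 1)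
    (hY : HasDerivWithinAt Y y' s x) (hL : HasDerivWithinAt L l' s x) :
    HasDerivWithinAt (fun z => Yf (Y z) (L z))
      (Real.exp (2 * L x) / Dn (Y x) (L x) ^ 2 * (y' + 2 * (Y x * (1 - Y x)) * l')) s x := by
  have hD := (Dn_pos hy (L x)).ne'
  have h1 := hY.mul (hL.const_mul 2).exp
  have h2 := (hY.const_sub 1).add h1
  refine (h1.div h2 hD).congr_deriv ?_
  have e : ((fun z => 1 - Y z) + Y * fun z => Real.exp (2 * L z)) x = Dn (Y x) (L x) := rfl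
  rw [e]
  simp only [Pi.mul_apply]
  field_simp
  rw [Dn]
  ring

theorem yf_mul {y : ℝ} (hy : y ∈ Icc (0 : ℝ) 1) (l : ℝ) :
    Yf y l * (1 - Yf y l) = y * (1 - y) * (Real.exp (2 * l) / Dn y l ^ 2) := by
  have hD := (Dn_pos hy l).ne'
  rw [one_sub_Yf hy, Yf]
  field_simp

theorem hasDerivAt_Yf_l {y : ℝ} (hy : y ∈ Icc (0 : ℝ) 1) (l : ℝ) :
    HasDerivAt (fun l => Yf y l) (2 * (Yf y l * (1 - Yf y l))) l := by
  have := yf_gen (Y := fun _ => y) (L := fun l => l) (s := univ) (x := l) hy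
    (hasDerivWithinAt_const l univ y) (hasDerivWithinAt_id l univ)
  rw [hasDerivWithinAt_univ] at this
  refine this.congr_deriv ?_
  rw [yf_mul hy]
  ring

theorem hasDerivAt_Yf_y {y : ℝ} (hy : y ∈ Icc (0 : ℝ) 1) (l : ℝ) :
    HasDerivAt (fun y => Yf y l) (Real.exp (2 * l) / Dn y l ^ 2) y := by
  have := yf_gen (Y := fun y => y) (L := fun _ => l) (s := univ) (x := y) hy
    (hasDerivWithinAt_id y univ) (hasDerivWithinAt_const y univ l)
  rw [hasDerivWithinAt_univ] at this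
  refine this.congr_deriv ?_
  ring

theorem Yf_mul {y : ℝ} (hy : y ∈ Icc (0 : ℝ) 1) (l : ℝ) :
    Yf y l * (1 - Yf y l) = y * (1 - y) * (Real.exp (2 * l) / Dn y l ^ 2) := by
  exact yf_mul hy l

theorem sm_Yf {I : Set ℝ} {L : Fn} (h : Sm I L) : Sm I fun t y => Yf y (L t y) := by
  have h1 : ContDiffOn ℝ ∞ (fun p : ℝ × ℝ => p.2 * Real.exp (2 * L p.1 p.2)) (I ×ˢ Icc 0 1) :=
    contDiffOn_snd.mul (contDiffOn_const.mul h).exp
  exact h1.div ((contDiffOn_const.sub contDiffOn_snd).add h1) fun p hp => (Dn_pos hp.2 _).ne'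

theorem sm_comp {I : Set ℝ} {u Y : Fn} (h : Sm I u) (hY : Sm I Y)
    (hm : ∀ t ∈ I, ∀ y ∈ Icc (0 : ℝ) 1, Y t y ∈ Icc (0 : ℝ) 1) : Sm I fun t y => u t (Y t y) := by
  exact ContDiffOn.comp (g := fun p : ℝ × ℝ => u p.1 p.2) (f := fun p : ℝ × ℝ => (p.1, Y p.1 p.2))
    h (contDiffOn_fst.prodMk hY) fun p hp => ⟨hp.1, hm _ hp.1 _ hp.2⟩

theorem hasT_comp {I : Set ℝ} (hI : TI I) {u : Fn} (h : Sm I u) {Y : ℝ → ℝ} {t Y' : ℝ} (ht : t ∈ I)
    (hm : ∀ s ∈ I, Y s ∈ Icc (0 : ℝ) 1) (hY : HasDerivWithinAt Y Y' I t) :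
    HasDerivWithinAt (fun s => u s (Y s)) (dT I u t (Y t) + dY u t (Y t) * Y') I t := by
  have hF := sm_fd h ht (hm t ht)
  have e1 := dT_eq (u := u) hI ht (sm_auxT (hm t ht) hF)
  have e2 := dY_eq (u := u) (hm t ht) (sm_auxY ht hF)
  have := hF.comp_hasDerivWithinAt t (f := fun s => (s, Y s))
    ((hasDerivWithinAt_id t I).prodMk hY) fun s hs => ⟨hs, hm s hs⟩
  refine this.congr_deriv ?_
  rw [e1, e2, show ((1 : ℝ), Y') = ((1 : ℝ), (0 : ℝ)) + Y' • ((0 : ℝ), (1 : ℝ)) by simp, map_add,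
    map_smul, smul_eq_mul, mul_comm]

/-- The `y`-derivative of the moved variable. -/
theorem hasY_Yf {L : ℝ → ℝ} {y l' : ℝ} (hy : y ∈ Icc (0 : ℝ) 1)
    (h : HasDerivWithinAt L l' (Icc 0 1) y) :
    HasDerivWithinAt (fun y => Yf y (L y))
      (Real.exp (2 * L y) / Dn y (L y) ^ 2 * (1 + 2 * (y * (1 - y)) * l')) (Icc 0 1) y := by
  exact yf_gen (Y := fun y => y) hy (hasDerivWithinAt_id y _) h

theorem contDiff_yy : ContDiff ℝ ∞ yy := by
  exact contDiff_b1.div (contDiff_const.add contDiff_b1) fun z => by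
    have := b1_nonneg z
    positivity

theorem contDiff_sg : ContDiff ℝ ∞ sg := by
  exact contDiff_const.div ((contDiff_const.add contDiff_b2).pow 2) fun z => by
    have := b2_nonneg z
    positivity

theorem hasFDerivAt_yy (z : EE) : HasFDerivAt yy ((2 * (1 - yy z) ^ 2) • b1 z) z := by
  have h0 : 1 + b1 z z ≠ 0 := by
    have := b1_nonneg z
    positivity
  have h1 : HasDerivAt (fun s : ℝ => s / (1 + s)) ((1 + b1 z z)⁻¹ ^ 2) (b1 z z) := by
    refine ((hasDerivAt_id (b1 z z)).div ((hasDerivAt_id (b1 z z)).const_add 1) h0).congr_deriv ?_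
    simp only [id]
    field_simp
    ring
  refine (h1.comp_hasFDerivAt (f := fun z => b1 z z) z (hasFDerivAt_b1 z)).congr_fderiv ?_
  rw [one_sub_yy, smul_smul, mul_comm]

theorem hasFDerivAt_comp_yy {u : ℝ → ℝ} {z : EE} {d : ℝ}
    (h : HasDerivWithinAt u d (Icc 0 1) (yy z)) :
    HasFDerivAt (fun x => u (yy x)) ((2 * (1 - yy z) ^ 2 * d) • b1 z) z := by
  have := h.comp_hasFDerivWithinAt z ((hasFDerivAt_yy z).hasFDerivWithinAt (s := univ))
    fun x _ => yy_mem x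
  rw [hasFDerivWithinAt_univ] at this
  refine this.congr_fderiv ?_
  rw [smul_smul, mul_comm]

theorem contDiff_comp_yy {u : ℝ → ℝ} (h : ContDiffOn ℝ ∞ u (Icc 0 1)) :
    ContDiff ℝ ∞ fun x => u (yy x) := by
  exact h.comp_contDiff contDiff_yy yy_mem

theorem contDiffOn_comp_yy {I : Set ℝ} {u : Fn} (h : Sm I u) :
    ContDiffOn ℝ ∞ (fun p : ℝ × EE => u p.1 (yy p.2)) (I ×ˢ univ) := by
  exact ContDiffOn.comp (g := fun p : ℝ × ℝ => u p.1 p.2) (f := fun p : ℝ × EE => (p.1, yy p.2))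
    h (contDiff_fst.prodMk (contDiff_yy.comp contDiff_snd)).contDiffOn fun p hp => ⟨hp.1, yy_mem _⟩

end

end Vale.Agent.P244.G
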