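import Vale.Agent.P244.G.Scal
import Vale.Agent.P244.G.Yf

/-!
P244 G/Ric (helper45): the Ricci tensor of the conformal warped metric.
-/

namespace Vale.Agent.P244.G

open scoped ContDiff Topology RealInnerProductSpace
open Set Filter Vale.Agent.P255

noncomputable section

theorem loc_Gc {φ β : EE → ℝ} (hφ : ContDiff ℝ ∞ φ) (hβ : ContDiff ℝ ∞ β) :
    LocMetric (Gc φ β) univ :=
  loc_Gm (p := fun z => Real.exp (2 * φ z)) (q := fun _ => 0)
    (h := fun z => Real.exp (2 * β z) * sg z) (contDiff_const.mul hφ).exp contDiff_const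
    ((contDiff_const.mul hβ).exp.mul contDiff_sg) (fun _ => Real.exp_pos _)
    (fun _ => by simpa using Real.exp_pos _) fun z => mul_pos (Real.exp_pos _) (sg_pos z)

/-- The closed form of the Christoffel map. -/
def ricG (α γ δ κ : ℝ) (z u v : EE) : EE :=
  α • (b1 z u • PP v + b1 z v • PP u - b1 u v • PP z) + γ • (b1 z u • QQ v + b1 z v • QQ u) +
    δ • (b2 z u • QQ v + b2 z v • QQ u - b2 u v • QQ z) - (κ * b2 u v) • PP z

/-- The logarithmic derivative of the factor of the round sphere. -/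
def ricD (z : EE) : ℝ := -2 * (1 + b2 z z)⁻¹

theorem ric_dD (z : EE) : HasFDerivAt ricD (ricD z ^ 2 • b2 z) z := by
  have h0 : 1 + b2 z z ≠ 0 := by linarith [b2_nonneg z]
  have h := ((hasDerivAt_inv h0).comp_hasFDerivAt z
    ((hasFDerivAt_b2 z).const_add 1)).const_mul (-2 : ℝ)
  refine h.congr_fderiv ?_
  rw [smul_smul, smul_smul, ricD]
  congr 1
  field_simp

theorem ric_sg (z : EE) : sg z = ricD z ^ 2 := by
  have h0 : 1 + b2 z z ≠ 0 := by linarith [b2_nonneg z]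
  rw [sg, ricD]
  field_simp
  norm_num

theorem ric_dsg (z : EE) : HasFDerivAt sg ((2 * ricD z * sg z) • b2 z) z := by
  have h := (ric_dD z).pow 2
  rw [← funext ric_sg] at h
  refine h.congr_fderiv ?_
  rw [smul_smul, ric_sg]
  congr 1
  simp

theorem ric_chr {φ β α γ : EE → ℝ} (hφ : ContDiff ℝ ∞ φ) (hβ : ContDiff ℝ ∞ β)
    (dφ : ∀ x, HasFDerivAt φ (α x • b1 x) x) (dβ : ∀ x, HasFDerivAt β (γ x • b1 x) x) (x u v : EE) :
    chr (Gc φ β) x u v =
      ricG (α x) (γ x) (ricD x) (γ x * Real.exp (2 * β x - 2 * φ x) * sg x) x u v := by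
  have hG := loc_Gc hφ hβ
  have hd : ∀ d a b, fderiv ℝ (Gc φ β) x d a b =
      Real.exp (2 * φ x) * (2 * α x * b1 x d) * b1 a b +
        Real.exp (2 * β x) * sg x * (2 * γ x * b1 x d + 2 * ricD x * b2 x d) * b2 a b := by
    intro d a b
    rw [← loc_fderiv_app2c (hG.loc_diff (mem_univ x))]
    have h := (((dφ x).const_mul 2).exp.mul_const (b1 a b)).fun_add
      ((((dβ x).const_mul 2).exp.fun_mul (ric_dsg x)).mul_const (b2 a b))
    have e : (fun z => Gc φ β z a b) = fun z => Real.exp (2 * φ z) * b1 a b +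
        Real.exp (2 * β z) * sg z * b2 a b := by
      funext z
      simp [Gc]
    rw [e, HasFDerivAt.fderiv h]
    simp
    ring
  refine hG.ext_vec (mem_univ x) fun w => ?_
  rw [hG.koszul (mem_univ x), hd, hd, hd]
  have e : Real.exp (2 * β x) = Real.exp (2 * φ x) * Real.exp (2 * β x - 2 * φ x) := by
    rw [← Real.exp_add]
    congr 1
    ring
  simp only [Gc, Gm_apply, ricG, map_add, map_sub, map_smul, add_apply, sub_apply, smul_apply,
    smul_eq_mul, b1_P_left, b1_Q_left, b2_P_left, b2_Q_left]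
  rw [e]
  ring

theorem ric_dG {α γ δ κ : EE → ℝ} {α' γ' δ' κ' : EE →L[ℝ] ℝ} {z : EE} (dα : HasFDerivAt α α' z)
    (dγ : HasFDerivAt γ γ' z) (dδ : HasFDerivAt δ δ' z) (dκ : HasFDerivAt κ κ' z) (u v d : EE) :
    fderiv ℝ (fun x => ricG (α x) (γ x) (δ x) (κ x) x u v) z d =
      ricG (α' d) (γ' d) (δ' d) (κ' d) z u v + ricG (α z) (γ z) (δ z) (κ z) d u v := by
  have p : ∀ a, HasFDerivAt (fun x => b1 x a) (b1.flip a) z := fun a => (b1.flip a).hasFDerivAt
  have q : ∀ a, HasFDerivAt (fun x => b2 x a) (b2.flip a) z := fun a => (b2.flip a).hasFDerivAt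
  have h := (((dα.smul ((((p u).smul_const (PP v)).add ((p v).smul_const (PP u))).sub
    (PP.hasFDerivAt.const_smul (b1 u v)))).add
    (dγ.smul (((p u).smul_const (QQ v)).add ((p v).smul_const (QQ u))))).add
    (dδ.smul ((((q u).smul_const (QQ v)).add ((q v).smul_const (QQ u))).sub
      (QQ.hasFDerivAt.const_smul (b2 u v))))).sub
    ((dκ.mul_const (b2 u v)).smul PP.hasFDerivAt)
  rw [HasFDerivAt.fderiv (f := fun x => ricG (α x) (γ x) (δ x) (κ x) x u v) h]
  simp [ricG]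
  module

/-- The trace. -/
def ricT (f : EE → EE) : ℝ := ∑ i, f (ee i) i

theorem ricT_add (f g : EE → EE) : ricT (fun u => f u + g u) = ricT f + ricT g := by
  simp [ricT, Finset.sum_add_distrib]
theorem ricT_sub (f g : EE → EE) : ricT (fun u => f u - g u) = ricT f - ricT g := by
  simp [ricT]
theorem ricT_smul (c : ℝ) (f : EE → EE) : ricT (fun u => c • f u) = c * ricT f := by
  simp [ricT, Finset.mul_sum]
theorem ricT_P : ricT (fun u => PP u) = 6 := tr_P
theorem ricT_Q : ricT (fun u => QQ u) = 5 := tr_Q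
theorem ricT_1 (a c : EE) : ricT (fun u => b1 a u • c) = b1 a c := tr_b1 a c
theorem ricT_2 (a c : EE) : ricT (fun u => b2 a u • c) = b2 a c := tr_b2 a c
theorem ricT_1' (a c : EE) : ricT (fun u => b1 u a • c) = b1 a c := by
  simp only [b1_comm _ a, ricT_1]
theorem ricT_2' (a c : EE) : ricT (fun u => b2 u a • c) = b2 a c := by
  simp only [b2_comm _ a, ricT_2]

theorem ric_t1 (α γ δ κ : ℝ) (x w : EE) : ricT (fun u => ricG α γ δ κ x u w) =
    (6 * α + 5 * γ) * b1 x w + 5 * δ * b2 x w := by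
  simp only [ricG, mul_smul, ricT_add, ricT_sub, ricT_smul, ricT_P, ricT_Q, ricT_1, ricT_2, ricT_1',
    ricT_2', b1_P_right, b1_Q_right, b2_P_right, b2_Q_right, b1_comm w x, b2_comm w x]
  ring

theorem ric_t2 (α γ δ κ : ℝ) (v w : EE) : ricT (fun u => ricG α γ δ κ u v w) =
    -(4 * α) * b1 v w - (3 * δ + 6 * κ) * b2 v w := by
  simp only [ricG, mul_smul, ricT_add, ricT_sub, ricT_smul, ricT_P, ricT_Q, ricT_1', ricT_2',
    b1_P_right, b1_Q_right, b2_Q_right, b1_comm w v, b2_comm w v]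
  ring

theorem ric_t3 (α γ δ κ κ' : ℝ) (z v w : EE) :
    ricT (fun u => ricG (α * b1 z u) (γ * b1 z u) (δ * b2 z u) (κ * b1 z u + κ' * b2 z u) z v w) =
      α * (2 * (b1 z v * b1 z w) - b1 z z * b1 v w) + δ * (2 * (b2 z v * b2 z w) - b2 z z * b2 v w) -
        κ * b1 z z * b2 v w := by
  simp only [ricG, mul_smul, add_smul, ricT_add, ricT_sub, ricT_smul, ricT_1, ricT_2, map_add,
    map_sub, map_smul, smul_eq_mul, b1_P_right, b1_Q_right, b2_P_right, b2_Q_right]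
  ring

theorem ric_t4 (α γ δ κ : ℝ) (z v w : EE) :
    ricT (fun u => ricG α γ δ κ z v (ricG α γ δ κ z u w)) =
      α ^ 2 * (8 * (b1 z v * b1 z w) - 2 * b1 z z * b1 v w) + 5 * γ ^ 2 * (b1 z v * b1 z w) +
        5 * γ * δ * (b1 z v * b2 z w + b1 z w * b2 z v) +
        δ ^ 2 * (7 * (b2 z v * b2 z w) - 2 * b2 z z * b2 v w) - 2 * γ * κ * b1 z z * b2 v w := by
  simp only [ricG, map_add, map_sub, map_smul, smul_eq_mul, PP_PP, PP_QQ, QQ_PP, QQ_QQ,
    b1_P_right, b1_Q_right, b2_P_right, b2_Q_right, smul_zero, mul_zero, add_zero, sub_zero,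
    zero_add, zero_sub, mul_smul, add_smul, sub_smul, smul_add, smul_sub,
    ricT_add, ricT_sub, ricT_smul, ricT_P, ricT_Q, ricT_1, ricT_2, ricT_1', ricT_2',
    b1_comm v z, b1_comm w z, b2_comm v z, b2_comm w z, b1_comm w v, b2_comm w v]
  ring

theorem ric_Gc {φ β α γ : EE → ℝ} {α₁ γ₁ : ℝ} {z : EE} (hφ : ContDiff ℝ ∞ φ) (hβ : ContDiff ℝ ∞ β)
    (dφ : ∀ x, HasFDerivAt φ (α x • b1 x) x) (dβ : ∀ x, HasFDerivAt β (γ x • b1 x) x)
    (dα : HasFDerivAt α (α₁ • b1 z) z) (dγ : HasFDerivAt γ (γ₁ • b1 z) z) (v w : EE) :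
    ric (Gc φ β) z v w = Gm
      (-10 * α z - 5 * γ z - (α₁ + 4 * α z ^ 2 + 5 * α z * γ z) * b1 z z)
      (-4 * (α₁ - α z ^ 2) - 5 * (γ₁ - 2 * α z * γ z + γ z ^ 2))
      ((4 - Real.exp (2 * β z - 2 * φ z) *
        (6 * γ z + (γ₁ + 4 * α z * γ z + 5 * γ z ^ 2) * b1 z z)) * sg z) z v w := by
  have dκ := (dγ.fun_mul (((dβ z).const_mul 2).fun_sub ((dφ z).const_mul 2)).exp).fun_mul
    (ric_dsg z)
  have e : ∀ a b d, fderiv ℝ (fun x => chr (Gc φ β) x a b) z d =
      ricG (α₁ * b1 z d) (γ₁ * b1 z d) (ricD z ^ 2 * b2 z d)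
        ((γ₁ + γ z * (2 * γ z - 2 * α z)) * Real.exp (2 * β z - 2 * φ z) * sg z * b1 z d +
          2 * ricD z * (γ z * Real.exp (2 * β z - 2 * φ z) * sg z) * b2 z d) z a b +
      ricG (α z) (γ z) (ricD z) (γ z * Real.exp (2 * β z - 2 * φ z) * sg z) d a b := by
    intro a b d
    simp only [ric_chr hφ hβ dφ dβ]
    rw [ric_dG dα dγ (ric_dD z) dκ]
    congr 2
    simp
    ring
  have r : ric (Gc φ β) z v w = ricT fun u => riem (Gc φ β) z u v w := rfl
  have s2 : ricD z ^ 2 * b2 z z = -2 * ricD z - ricD z ^ 2 := by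
    have h0 : 1 + b2 z z ≠ 0 := by linarith [b2_nonneg z]
    rw [ricD]
    field_simp
    ring
  rw [r]
  simp only [riem, e]
  simp only [ric_chr hφ hβ dφ dβ, ricT_add, ricT_sub, ric_t1, ric_t2, ric_t3, ric_t4]
  simp only [ricG, map_add, map_sub, map_smul, smul_eq_mul, b1_P_right, b1_Q_right, b2_P_right,
    b2_Q_right, Gm_apply, ric_sg]
  linear_combination (-4 * b2 v w) * s2

end

end Vale.Agent.P244.G
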