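import Vale.Agent.P244.G.Yf
import Vale.Agent.P244.G.Ric

/-!
P244 G/Hat (TASK): Ricci curvature of the metric `Gh`.  Prefix helper names by `hat_`.
`ric_Gc` with `u = 1 - yy x = (1 + b1 x x)⁻¹` (`one_sub_yy`), `α x = 2 u² dY A - 2 u`, `γ x = 2 u² dY β`, `α₁ = 2 u² (2 u² dY dY A - 4 u dY A + 2)`, `γ₁ = 2 u² (2 u² dY dY β - 4 u dY β)`
(`hasFDerivAt_comp_yy` for the one variable functions `y ↦ 2 (1 - y)² dY A t y - 2 (1 - y)`, `Sm.hasY`, `Sm.dY`, `hasFDerivAt_b1`, `HasFDerivAt.log`).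
Finally `b1 z z = yy z / (1 - yy z)`, `exp (2 β - 2 φ) = exp (2 β) exp (-2 A) / u²`, `exp (2 β) exp (-2 β) = 1`; `congr`, `field_simp`, `ring`.
-/

namespace Vale.Agent.P244.G

open scoped ContDiff Topology RealInnerProductSpace
open Set Filter Vale.Agent.P255

noncomputable section

variable {T t : ℝ} {D : Tri}

theorem hat_pos (z : EE) : 0 < 1 + b1 z z := by linarith [b1_nonneg z]

theorem hat_phi (h : Dat T D) (ht : t ∈ Ico 0 T) :
    ContDiff ℝ ∞ fun z : EE => D.A t (yy z) - Real.log (1 + b1 z z) :=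
  (contDiff_comp_yy (h.smA.slice ht)).sub
    ((contDiff_const.add contDiff_b1).log fun z => (hat_pos z).ne')

theorem hat_exp (a : ℝ) (z : EE) :
    Real.exp (2 * (a - Real.log (1 + b1 z z))) = Real.exp (2 * a) * (1 - yy z) ^ 2 := by
  rw [one_sub_yy, mul_sub, Real.exp_sub, two_mul (Real.log _), Real.exp_add,
    Real.exp_log (hat_pos z), inv_pow, div_eq_mul_inv, sq]

theorem hat_der {u : Fn} (h : Sm (Ico 0 T) u) (hT : 0 < T) (ht : t ∈ Ico 0 T) {y : ℝ}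
    (hy : y ∈ Icc (0 : ℝ) 1) (c : ℝ) :
    HasDerivWithinAt (fun y => 2 * (1 - y) ^ 2 * dY u t y - c * (1 - y))
      (2 * (1 - y) ^ 2 * dY (dY u) t y - 4 * (1 - y) * dY u t y + c) (Icc 0 1) y := by
  have h1 : HasDerivWithinAt (fun y : ℝ => 1 - y) (-1) (Icc 0 1) y :=
    (hasDerivWithinAt_id y _).const_sub 1
  have h2 := (h.dY (ti_Ico hT)).hasY ht hy
  refine ((((h1.pow 2).const_mul 2).mul h2).sub (h1.const_mul c)).congr_deriv ?_
  simp only [Pi.pow_apply]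
  push_cast
  ring

theorem loc_Gh (h : Dat T D) (ht : t ∈ Ico 0 T) : LocMetric (D.Gh t) univ := by
  exact loc_Gc (hat_phi h ht) (contDiff_comp_yy (h.smβ.slice ht))

theorem Gh_eq (D : Tri) (t : ℝ) (z : EE) : D.Gh t z =
    Gm (Real.exp (2 * D.A t (yy z)) * (1 - yy z) ^ 2) 0 (Real.exp (2 * D.β t (yy z)) * sg z) z := by
  rw [Tri.Gh, Gc, hat_exp]

theorem ric_Gh (h : Dat T D) (ht : t ∈ Ico 0 T) (z v w : EE) : ric (D.Gh t) z v w =
    Gm ((1 - yy z) ^ 2 * r1 D.A D.β t (yy z)) (-4 * (1 - yy z) ^ 4 * r0 D.A D.β t (yy z))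
      (Real.exp (2 * D.β t (yy z)) * r2 D.A D.β t (yy z) * sg z) z v w := by
  have dφ : ∀ x : EE, HasFDerivAt (fun z : EE => D.A t (yy z) - Real.log (1 + b1 z z))
      ((2 * (1 - yy x) ^ 2 * dY D.A t (yy x) - 2 * (1 - yy x)) • b1 x) x := by
    intro x
    refine ((hasFDerivAt_comp_yy (h.smA.hasY ht (yy_mem x))).sub
      (((hasFDerivAt_b1 x).const_add 1).log (hat_pos x).ne')).congr_fderiv ?_
    rw [← one_sub_yy, smul_smul, ← sub_smul, mul_comm (1 - yy x) 2]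
  have dβ : ∀ x : EE, HasFDerivAt (fun z : EE => D.β t (yy z))
      ((2 * (1 - yy x) ^ 2 * dY D.β t (yy x) - 0 * (1 - yy x)) • b1 x) x := by
    intro x
    rw [zero_mul, sub_zero]
    exact hasFDerivAt_comp_yy (h.smβ.hasY ht (yy_mem x))
  have key := ric_Gc (hat_phi h ht) (contDiff_comp_yy (h.smβ.slice ht)) dφ dβ
    (hasFDerivAt_comp_yy (hat_der h.smA h.pos ht (yy_mem z) 2))
    (hasFDerivAt_comp_yy (hat_der h.smβ h.pos ht (yy_mem z) 0)) v w
  rw [Tri.Gh, key]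
  have hu : 1 - yy z ≠ 0 := by rw [one_sub_yy]; exact inv_ne_zero (hat_pos z).ne'
  have hs : b1 z z = yy z / (1 - yy z) := by
    rw [one_sub_yy, yy, div_inv_eq_mul, div_mul_cancel₀ _ (hat_pos z).ne']
  have e1 : Real.exp (2 * D.β t (yy z) - 2 * (D.A t (yy z) - Real.log (1 + b1 z z))) =
      Real.exp (2 * D.β t (yy z)) * Real.exp (-2 * D.A t (yy z)) / (1 - yy z) ^ 2 := by
    rw [Real.exp_sub, hat_exp, neg_mul, Real.exp_neg]
    field_simp
  have e2 : Real.exp (-2 * D.β t (yy z)) = (Real.exp (2 * D.β t (yy z)))⁻¹ := by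
    rw [neg_mul, Real.exp_neg]
  have e3 := Real.exp_ne_zero (2 * D.β t (yy z))
  rw [e1, hs]
  congr 3
  · rw [r1]
    field_simp
    ring
  · rw [r0]
    ring
  · rw [r2, e2]
    field_simp
    ring

end

end Vale.Agent.P244.G
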