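import Vale.Agent.P244.G.Yf

/-!
P244 G/Refl (TASK): the reflection `y ↦ 1 - y`.  Prefix helper names by `refl_`.
`dY_refl`: `Sm.hasY` at `1 - y`, `HasDerivWithinAt.comp` with `y ↦ 1 - y` (maps `Icc 0 1` to itself), `dY_eq`.  `dY_refl2`: `dY_congr` with `dY_refl`, then the same for `-dY u`.
`Yf_refl`: `Dn (1 - y) (-l) = exp (-2 l) Dn y l`.  `Dat.refl`: `rhsA`, `rhsB`, `DD`, `chi` at `y` of the reflected data equal (up to sign for `chi`) the original ones at `1 - y`; `HasDerivWithinAt.neg`, `convert`, `ring`.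
`refl_refl`: `cases D`, `funext`, `sub_sub_cancel`, `neg_neg`.
-/

namespace Vale.Agent.P244.G

open scoped ContDiff Topology RealInnerProductSpace
open Set Filter Vale.Agent.P255

noncomputable section

variable {T t y : ℝ} {D : Tri}

theorem refl_mem (hy : y ∈ Icc (0 : ℝ) 1) : 1 - y ∈ Icc (0 : ℝ) 1 :=
  ⟨by linarith [hy.2], by linarith [hy.1]⟩

theorem sm_refl {I : Set ℝ} {u : Fn} (h : Sm I u) : Sm I fun t y => u t (1 - y) := by
  exact ContDiffOn.comp (f := fun p : ℝ × ℝ => ((p.1, 1 - p.2) : ℝ × ℝ)) h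
    (contDiff_fst.prodMk (contDiff_const.sub contDiff_snd)).contDiffOn
    fun _ hp => ⟨hp.1, refl_mem hp.2⟩

theorem dY_refl {I : Set ℝ} {u : Fn} (h : Sm I u) (ht : t ∈ I) (hy : y ∈ Icc (0 : ℝ) 1) (c : ℝ) :
    dY (fun t y => c * u t (1 - y)) t y = -c * dY u t (1 - y) := by
  have h1 := (h.hasY ht (refl_mem hy)).comp y (h := fun z : ℝ => 1 - z)
    ((hasDerivAt_id y).const_sub 1).hasDerivWithinAt fun _ hz => refl_mem hz
  refine dY_eq (u := fun t y => c * u t (1 - y)) hy ((h1.const_mul c).congr_deriv ?_)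
  ring

theorem refl_d1 {I : Set ℝ} {u : Fn} (h : Sm I u) (ht : t ∈ I) (hy : y ∈ Icc (0 : ℝ) 1) :
    dY (fun t y => u t (1 - y)) t y = -dY u t (1 - y) := by
  simpa using dY_refl h ht hy 1

theorem refl_d1n {I : Set ℝ} {u : Fn} (h : Sm I u) (ht : t ∈ I) (hy : y ∈ Icc (0 : ℝ) 1) :
    dY (fun t y => -u t (1 - y)) t y = dY u t (1 - y) := by
  simpa using dY_refl h ht hy (-1)

theorem dY_refl2 {I : Set ℝ} (hI : TI I) {u : Fn} (h : Sm I u) (ht : t ∈ I)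
    (hy : y ∈ Icc (0 : ℝ) 1) : dY (dY fun t y => u t (1 - y)) t y = dY (dY u) t (1 - y) := by
  rw [dY_congr (v := fun t y => -dY u t (1 - y)) (fun z hz => refl_d1 h ht hz) hy]
  exact refl_d1n (h.dY hI) ht hy

theorem refl_exp (l : ℝ) : Real.exp (2 * -l) = (Real.exp (2 * l))⁻¹ := by
  rw [← Real.exp_neg]
  congr 1
  ring

theorem refl_Dn (y l : ℝ) : Dn (1 - y) (-l) = (Real.exp (2 * l))⁻¹ * Dn y l := by
  have := (Real.exp_pos (2 * l)).ne'
  rw [Dn, Dn, refl_exp]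
  field_simp
  ring

theorem Yf_refl (hy : y ∈ Icc (0 : ℝ) 1) (l : ℝ) : Yf (1 - y) (-l) = 1 - Yf y l := by
  have h1 := (Real.exp_pos (2 * l)).ne'
  have h2 := (Dn_pos hy l).ne'
  rw [one_sub_Yf hy, Yf, refl_Dn, refl_exp]
  field_simp

theorem refl_refl (D : Tri) : D.refl.refl = D := by
  cases D
  simp only [Tri.refl, sub_sub_cancel, neg_neg]

theorem sw_sw (D : Tri) (a b : Bool) : (D.sw a).sw (a != b) = D.sw b := by
  cases a <;> cases b <;> simp [Tri.sw, refl_refl]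

theorem refl_Y (D : Tri) (t : ℝ) (hy : y ∈ Icc (0 : ℝ) 1) :
    D.refl.Y t (1 - y) = 1 - D.Y t y := by
  simp only [Tri.Y, Tri.refl, sub_sub_cancel]
  exact Yf_refl hy _

theorem refl_Y' (D : Tri) (t : ℝ) (hy : y ∈ Icc (0 : ℝ) 1) :
    1 - D.refl.Y t y = D.Y t (1 - y) := by
  have := refl_Y D t (refl_mem hy)
  rw [sub_sub_cancel] at this
  rw [this, sub_sub_cancel]

theorem refl_dA (h : Dat T D) (ht : t ∈ Ico 0 T) (hy : y ∈ Icc (0 : ℝ) 1) :
    dY D.refl.A t y = -dY D.A t (1 - y) := refl_d1 h.smA ht hy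

theorem refl_dβ (h : Dat T D) (ht : t ∈ Ico 0 T) (hy : y ∈ Icc (0 : ℝ) 1) :
    dY D.refl.β t y = -dY D.β t (1 - y) := refl_d1 h.smβ ht hy

theorem refl_dB (h : Dat T D) (ht : t ∈ Ico 0 T) (hy : y ∈ Icc (0 : ℝ) 1) :
    dY D.refl.B t y = dY D.B t (1 - y) := refl_d1n h.smB ht hy

theorem refl_dL (h : Dat T D) (ht : t ∈ Ico 0 T) (hy : y ∈ Icc (0 : ℝ) 1) :
    dY D.refl.L t y = dY D.L t (1 - y) := refl_d1n h.smL ht hy

theorem refl_ddA (h : Dat T D) (ht : t ∈ Ico 0 T) (hy : y ∈ Icc (0 : ℝ) 1) :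
    dY (dY D.refl.A) t y = dY (dY D.A) t (1 - y) := dY_refl2 (ti_Ico h.pos) h.smA ht hy

theorem refl_ddβ (h : Dat T D) (ht : t ∈ Ico 0 T) (hy : y ∈ Icc (0 : ℝ) 1) :
    dY (dY D.refl.β) t y = dY (dY D.β) t (1 - y) := dY_refl2 (ti_Ico h.pos) h.smβ ht hy

theorem refl_A (D : Tri) (t y : ℝ) : D.refl.A t y = D.A t (1 - y) := rfl
theorem refl_β (D : Tri) (t y : ℝ) : D.refl.β t y = D.β t (1 - y) := rfl
theorem refl_B (D : Tri) (t y : ℝ) : D.refl.B t y = -D.B t (1 - y) := rfl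
theorem refl_L (D : Tri) (t y : ℝ) : D.refl.L t y = -D.L t (1 - y) := rfl

theorem Dat.refl (h : Dat T D) : Dat T D.refl := by
  refine ⟨h.pos, sm_refl h.smA, sm_refl h.smβ, (sm_refl h.smB).neg, (sm_refl h.smL).neg,
    fun t ht y hy => ?_, fun t ht y hy => ?_, fun t ht y hy => ?_, fun t ht y hy => ?_,
    fun t ht y hy => ?_⟩
  · refine (h.eqA t ht _ (refl_mem hy)).congr_deriv ?_
    simp only [rhsA, DD, refl_dA h ht hy, refl_ddA h ht hy, refl_A, refl_B]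
    ring
  · refine (h.eqβ t ht _ (refl_mem hy)).congr_deriv ?_
    simp only [rhsB, DD, refl_dβ h ht hy, refl_ddβ h ht hy, refl_A, refl_B, refl_β]
    ring
  · rw [refl_dB h ht hy, refl_dA h ht hy, refl_dβ h ht hy, refl_A, h.eqB t ht _ (refl_mem hy)]
    ring
  · have hY : D.refl.Y t y ∈ Icc (0 : ℝ) 1 := Yf_mem hy _
    refine (h.eqL t ht _ (refl_mem hy)).neg.congr_deriv ?_
    simp only [chi, refl_dA h ht hY, refl_dβ h ht hY, refl_A, refl_B, refl_Y' D t hy]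
    ring
  · rw [refl_dL h ht hy]
    have := h.posL t ht _ (refl_mem hy)
    rw [sub_sub_cancel] at this
    linarith

theorem Dat.sw (h : Dat T D) (a : Bool) : Dat T (D.sw a) := by
  cases a
  · exact h
  · exact h.refl

theorem Rf_refl (h : Dat T D) (ht : t ∈ Ico 0 T) (hy : y ∈ Icc (0 : ℝ) 1) :
    Rf D.refl.A D.refl.β t y = Rf D.A D.β t (1 - y) := by
  simp only [Rf, refl_dA h ht hy, refl_ddA h ht hy, refl_dβ h ht hy, refl_ddβ h ht hy, refl_A,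
    refl_β]
  ring

theorem Hc_refl (D : Tri) (t : ℝ) (hy : y ∈ Icc (0 : ℝ) 1) : D.refl.Hc t (1 - y) = D.Hc t y := by
  simp only [Tri.Hc, refl_β, refl_Y D t hy, sub_sub_cancel]

theorem Pc_refl (D : Tri) (t : ℝ) (hy : y ∈ Icc (0 : ℝ) 1) :
    D.refl.Pc t (1 - y) * (1 - y) ^ 2 = D.Pc t y * y ^ 2 := by
  have h1 := (Real.exp_pos (2 * D.L t y)).ne'
  have h2 := (Dn_pos hy (D.L t y)).ne'
  simp only [Tri.Pc, Tri.kc, refl_A, refl_L, refl_Y D t hy, sub_sub_cancel, refl_exp]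
  have e1 : 1 - D.Y t y = (1 - y) / Dn y (D.L t y) := one_sub_Yf hy _
  have e2 : D.Y t y = y * Real.exp (2 * D.L t y) / Dn y (D.L t y) := rfl
  generalize Real.exp (2 * D.A t (D.Y t y)) = a
  rw [e1, e2]
  field_simp

theorem mu_refl (h : Dat T D) (ht : t ∈ Ico 0 T) (hy : y ∈ Icc (0 : ℝ) 1) :
    D.refl.mu t (1 - y) * (1 - y) ^ 2 = D.mu t y * y ^ 2 := by
  simp only [Tri.mu, refl_dL h ht (refl_mem hy), sub_sub_cancel]
  ring

end

end Vale.Agent.P244.G
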