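import Vale.Agent.P244.G.Iv
import Vale.Agent.P244.G.Refl

/-!
P244 G/Inv (TASK): compatibility of the metrics under the inversions.  Prefix helper names by `inv_`.
Unfold `Tri.Gt`, `Gm_apply`, rewrite with `b1_div`, `b1_rad`, `b2_div`, `yy_iv`, `sg_iv`.  For `a = false` nothing else is needed.  For `a = true`, with `s = b1 z z > 0`, `y = yy z`, `y = s (1 - y)`, `1 - y ≠ 0` (`one_sub_yy`):
`Pc_refl` gives `Pc' = s² Pc`, `mu_refl` gives `mu' = s² mu`, `Hc_refl`.
-/

namespace Vale.Agent.P244.G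

open scoped ContDiff Topology RealInnerProductSpace
open Set Filter Vale.Agent.P255

noncomputable section

theorem Gt_iv {T t : ℝ} {D : Tri} (h : Dat T D) (ht : t ∈ Ico 0 T) {a b : Bool} {z : EE}
    (hz : z ∈ Dom a b) (u v : EE) : D.Gt t z u v =
      (D.sw a).Gt t (iv a b z) (fderiv ℝ (iv a b) z u) (fderiv ℝ (iv a b) z v) := by
  unfold Tri.Gt
  rw [Gm_apply, Gm_apply, b1_div hz, b1_rad hz, b1_rad hz, b2_div hz, yy_iv hz, ← sg_iv hz]
  cases a
  · simp only [Tri.sw, cond_false]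
    ring
  · have hs : 0 < b1 z z := b1_pos (hz.1 rfl)
    have h1 : (1 - yy z) ^ 2 ≠ 0 := by
      rw [one_sub_yy]
      positivity
    have hy : yy z = b1 z z * (1 - yy z) := by
      rw [one_sub_yy, yy, div_eq_mul_inv]
    have hy2 : yy z ^ 2 = b1 z z ^ 2 * (1 - yy z) ^ 2 := by rw [← mul_pow, ← hy]
    have hP : D.refl.Pc t (1 - yy z) = b1 z z ^ 2 * D.Pc t (yy z) := by
      refine mul_right_cancel₀ h1 ?_
      rw [Pc_refl D t (yy_mem z), hy2]
      ring
    have hm : D.refl.mu t (1 - yy z) = b1 z z ^ 2 * D.mu t (yy z) := by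
      refine mul_right_cancel₀ h1 ?_
      rw [mu_refl h ht (yy_mem z), hy2]
      ring
    simp only [Tri.sw, cond_true, Tri.Qc, hP, hm, Hc_refl D t (yy_mem z)]
    field_simp

end

end Vale.Agent.P244.G
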