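import Vale.Agent.P244.G.Defs

/-!
P244 G/Iv (TASK): calculus of the inversions.  Prefix helper names by `iv_`.  Case distinction on the two booleans (`cases a <;> cases b`, `cond_true`, `cond_false`), or treat the scalar factors
`f a z = bif a then (b1 z z)⁻¹ else 1` separately: `contDiff_b1`, `ContDiffAt.inv`, `b1_pos`, `hasFDerivAt_b1`, `HasFDerivAt.inv` (or `hasDerivAt_inv.comp_hasFDerivAt`), `HasFDerivAt.smul`.
For `a = true`: `PP (D u) = s⁻¹ • (PP u - (2 s⁻¹ b1 z u) • PP z)`.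
-/

namespace Vale.Agent.P244.G

open scoped ContDiff Topology RealInnerProductSpace
open Set Filter Vale.Agent.P255

noncomputable section

variable {a b : Bool} {z : EE}

theorem iv_fd (hz : z ∈ Dom a b) (u : EE) : fderiv ℝ (iv a b) z u =
    ((bif a then (b1 z z)⁻¹ else 1) • PP u +
      (bif a then -((b1 z z)⁻¹ ^ 2 * (2 * b1 z u)) else 0) • PP z) +
    ((bif b then (b2 z z)⁻¹ else 1) • QQ u +
      (bif b then -((b2 z z)⁻¹ ^ 2 * (2 * b2 z u)) else 0) • QQ z) := by
  have h1 : HasFDerivAt (fun z : EE => bif a then (b1 z z)⁻¹ else 1)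
      (bif a then -((b1 z z)⁻¹ ^ 2) • ((2 : ℝ) • b1 z) else 0) z := by
    cases a
    · exact hasFDerivAt_const _ _
    · have := HasDerivAt.comp_hasFDerivAt (f := fun z : EE => b1 z z) z
        (hasDerivAt_inv (b1_pos (hz.1 rfl)).ne') (hasFDerivAt_b1 z)
      rw [← inv_pow] at this
      exact this
  have h2 : HasFDerivAt (fun z : EE => bif b then (b2 z z)⁻¹ else 1)
      (bif b then -((b2 z z)⁻¹ ^ 2) • ((2 : ℝ) • b2 z) else 0) z := by
    cases b
    · exact hasFDerivAt_const _ _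
    · have := HasDerivAt.comp_hasFDerivAt (f := fun z : EE => b2 z z) z
        (hasDerivAt_inv (b2_pos (hz.2 rfl)).ne') (hasFDerivAt_b2 z)
      rw [← inv_pow] at this
      exact this
  have h : HasFDerivAt (iv a b) _ z :=
    (h1.fun_smul PP.hasFDerivAt).fun_add (h2.fun_smul QQ.hasFDerivAt)
  rw [h.fderiv]
  cases a <;> cases b <;> simp

theorem isOpen_Dom (a b : Bool) : IsOpen (Dom a b) := by
  have h1 : IsOpen {z : EE | PP z ≠ 0} := isOpen_ne.preimage PP.continuous
  have h2 : IsOpen {z : EE | QQ z ≠ 0} := isOpen_ne.preimage QQ.continuous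
  cases a <;> cases b
  · simp [Dom]
  · simpa [Dom] using h2
  · simpa [Dom] using h1
  · simpa [Dom, Set.inter_def] using h1.inter h2

theorem contDiffAt_iv (hz : z ∈ Dom a b) : ContDiffAt ℝ ∞ (iv a b) z := by
  refine (ContDiffAt.smul (f := fun z : EE => bif a then (b1 z z)⁻¹ else 1) ?_
    PP.contDiff.contDiffAt).add (ContDiffAt.smul (f := fun z : EE => bif b then (b2 z z)⁻¹ else 1)
      ?_ QQ.contDiff.contDiffAt)
  · cases a
    · exact contDiffAt_const
    · exact contDiff_b1.contDiffAt.inv (b1_pos (hz.1 rfl)).ne'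
  · cases b
    · exact contDiffAt_const
    · exact contDiff_b2.contDiffAt.inv (b2_pos (hz.2 rfl)).ne'

theorem b1_iv (hz : z ∈ Dom a b) :
    b1 (iv a b z) (iv a b z) = bif a then (b1 z z)⁻¹ else b1 z z := by
  cases a
  · simp [iv]
  · have := (b1_pos (hz.1 rfl)).ne'
    simp [iv, this]

theorem b2_iv (hz : z ∈ Dom a b) :
    b2 (iv a b z) (iv a b z) = bif b then (b2 z z)⁻¹ else b2 z z := by
  cases b
  · simp [iv]
  · have := (b2_pos (hz.2 rfl)).ne'
    simp [iv, this]

theorem b1_div (hz : z ∈ Dom a b) (u v : EE) :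
    b1 (fderiv ℝ (iv a b) z u) (fderiv ℝ (iv a b) z v) =
      (bif a then (b1 z z)⁻¹ ^ 2 else 1) * b1 u v := by
  rw [iv_fd hz, iv_fd hz]
  cases a
  · simp
  · have := (b1_pos (hz.1 rfl)).ne'
    simp [b1_comm u z]
    field_simp
    ring

theorem b1_rad (hz : z ∈ Dom a b) (u : EE) :
    b1 (iv a b z) (fderiv ℝ (iv a b) z u) = (bif a then -(b1 z z)⁻¹ ^ 2 else 1) * b1 z u := by
  rw [iv_fd hz]
  cases a
  · simp [iv]
  · have := (b1_pos (hz.1 rfl)).ne'
    simp [iv]
    field_simp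
    ring

theorem b2_div (hz : z ∈ Dom a b) (u v : EE) :
    b2 (fderiv ℝ (iv a b) z u) (fderiv ℝ (iv a b) z v) =
      (bif b then (b2 z z)⁻¹ ^ 2 else 1) * b2 u v := by
  rw [iv_fd hz, iv_fd hz]
  cases b
  · simp
  · have := (b2_pos (hz.2 rfl)).ne'
    simp [b2_comm u z]
    field_simp
    ring

theorem yy_iv (hz : z ∈ Dom a b) : yy (iv a b z) = bif a then 1 - yy z else yy z := by
  rw [yy, b1_iv hz]
  cases a
  · rfl
  · have := b1_pos (hz.1 rfl)
    simp only [cond_true, one_sub_yy]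
    field_simp
    ring

theorem sg_iv (hz : z ∈ Dom a b) :
    sg (iv a b z) * (bif b then (b2 z z)⁻¹ ^ 2 else 1) = sg z := by
  rw [sg, b2_iv hz]
  cases b
  · simp [sg]
  · have := b2_pos (hz.2 rfl)
    simp only [cond_true, sg]
    field_simp
    ring

end

end Vale.Agent.P244.G
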