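import Vale.Agent.P244.G.MfdA
import Vale.Agent.P244.G.Iv

/-!
P244 G/MfdB (TASK): the manifold `S⁶ × S⁵` with four charts.  Prefix helper names by `mfb_`.
`V₁ = ker QQ`, `V₂ = ker PP` (submodules of `EE`; finite dimensional, so proper: `FiniteDimensional.proper_real`; nontrivial: `ee 0`, `ee 6`; `NormedSpace.noncompactSpace`), `M = OnePoint V₁ × OnePoint V₂`.
`H : V₁ × V₂ ≃ₜ EE`, `(a, b) ↦ a + b`, inverse `z ↦ (⟨PP z, _⟩, ⟨QQ z, _⟩)` (`PQ_add`).  `c k = ((c₁ k.1).prod (c₂ k.2)).transHomeomorph H`; `atlas = range c`, `chartAt` by choice.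
`idx e = decide (∃ q, (∞, q) ∈ e.source)` (classical).  The transition formula: `cases` on the booleans, `OpenPartialHomeomorph.right_inv` when the indices agree, `b1_self`, `b2_self`.
`isManifold_of_contDiffOn`: on the source of the transition the point lies in `Dom` (`map_target`, `right_inv`), `contDiffAt_iv`, `ContDiffOn.congr`.
-/

namespace Vale.Agent.P244.G

open scoped ContDiff Topology RealInnerProductSpace
open Set Filter Vale.Agent.P255

noncomputable section

open scoped Manifold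

theorem mfb_sph (V : Type) [NormedAddCommGroup V] [NormedSpace ℝ V] [ProperSpace V] :
    ∃ c : Bool → OpenPartialHomeomorph (OnePoint V) V, (∀ a, (c a).target = univ) ∧
      (∀ x, ∃ a, x ∈ (c a).source) ∧ (∀ a, OnePoint.infty ∈ (c a).source ↔ a = true) ∧
      (∀ a b x, x ∈ (c a).source → x ∈ (c b).source → (a != b) = true → c a x ≠ 0) ∧
      ∀ a b v, ((a != b) = true → v ≠ 0) →
        c b ((c a).symm v) = (bif a != b then (‖v‖ ^ 2)⁻¹ else 1 : ℝ) • v := by
  obtain ⟨c, h1, h2, h3, h4, h5⟩ := exists_sph V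
  refine ⟨c, h1, h2, h3, fun a b x ha hb hab => h4 a x ha ?_, fun a b v hv => ?_⟩
  · cases a <;> cases b <;> simp_all
  · rcases eq_or_ne a b with rfl | hab
    · rw [(c a).right_inv (by simp [h1])]
      simp
    · obtain rfl : b = !a := by cases a <;> cases b <;> simp_all
      have h : (a != !a) = true := by cases a <;> rfl
      rw [h5 a v (hv h), h, cond_true]

/-- The first factor. -/
abbrev mfb_V : Submodule ℝ EE := LinearMap.ker QQ.toLinearMap

/-- The second factor. -/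
abbrev mfb_W : Submodule ℝ EE := LinearMap.ker PP.toLinearMap

theorem mfb_P (a : mfb_V) (b : mfb_W) : PP (a.1 + b.1) = a.1 := by
  have h1 : QQ a.1 = 0 := a.2
  have h2 : PP b.1 = 0 := b.2
  have h3 := PQ_add a.1
  rw [h1, add_zero] at h3
  rw [map_add, h2, h3, add_zero]

theorem mfb_Q (a : mfb_V) (b : mfb_W) : QQ (a.1 + b.1) = b.1 := by
  have h := PQ_add (a.1 + b.1)
  rwa [mfb_P, add_right_inj] at h

/-- The splitting of the model space. -/
def mfb_H : mfb_V × mfb_W ≃ₜ EE where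
  toFun p := p.1.1 + p.2.1
  invFun z := (⟨PP z, QQ_PP z⟩, ⟨QQ z, PP_QQ z⟩)
  left_inv p := Prod.ext (Subtype.ext (mfb_P p.1 p.2)) (Subtype.ext (mfb_Q p.1 p.2))
  right_inv := PQ_add
  continuous_toFun := by fun_prop
  continuous_invFun := (PP.continuous.subtype_mk _).prodMk (QQ.continuous.subtype_mk _)

theorem mfb_nc (U : Submodule ℝ EE) {i : Fin 11} (hi : ee i ∈ U) : NoncompactSpace U := by
  have : Nontrivial U := ⟨⟨⟨ee i, hi⟩, 0, fun h => by simpa using congrArg (fun x : U => x.1 i) h⟩⟩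
  exact NormedSpace.noncompactSpace ℝ U

theorem exists_mfd : ∃ (M : Type) (_ : TopologicalSpace M) (_ : ChartedSpace EE M),
    IsManifold (𝓡 11) ∞ M ∧ CompactSpace M ∧ T2Space M ∧ ConnectedSpace M ∧
    ∃ (c : Bool × Bool → OpenPartialHomeomorph M EE) (idx : OpenPartialHomeomorph M EE → Bool),
      atlas EE M = range c ∧ (∀ k, idx (c k) = k.1) ∧ (∀ k, (c k).target = univ) ∧
      (∀ k l x, x ∈ (c k).source → x ∈ (c l).source → c k x ∈ Dom (k.1 != l.1) (k.2 != l.2)) ∧
      ∀ k l, ∀ z ∈ Dom (k.1 != l.1) (k.2 != l.2),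
        c l ((c k).symm z) = iv (k.1 != l.1) (k.2 != l.2) z := by
  classical
  have := FiniteDimensional.proper_real mfb_V
  have := FiniteDimensional.proper_real mfb_W
  have := mfb_nc mfb_V (i := 0) (by
    ext i
    change QQ (ee 0) i = 0
    rw [QQ_apply]
    split_ifs with h
    · rfl
    · exact PiLp.single_eq_of_ne _ (by rintro rfl; simp at h) _)
  have := mfb_nc mfb_W (i := 6) (by
    ext i
    change PP (ee 6) i = 0
    rw [PP_apply]
    split_ifs with h
    · exact PiLp.single_eq_of_ne _ (by rintro rfl; simp at h) _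
    · rfl)
  obtain ⟨c, c1, c2, c3, c4, c5⟩ := mfb_sph mfb_V
  obtain ⟨d, d1, d2, -, d4, d5⟩ := mfb_sph mfb_W
  set e : Bool × Bool → OpenPartialHomeomorph (OnePoint mfb_V × OnePoint mfb_W) EE :=
    fun k => ((c k.1).prod (d k.2)).transHomeomorph mfb_H with he
  have es : ∀ k x, x ∈ (e k).source ↔ x.1 ∈ (c k.1).source ∧ x.2 ∈ (d k.2).source :=
    fun k x => Iff.rfl
  have et : ∀ k, (e k).target = univ := fun k => eq_univ_of_forall fun z =>
    ⟨(c1 k.1).symm ▸ mem_univ _, (d1 k.2).symm ▸ mem_univ _⟩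
  have hcov : ∀ x, ∃ k, x ∈ (e k).source := fun x => by
    obtain ⟨a, ha⟩ := c2 x.1
    obtain ⟨b, hb⟩ := d2 x.2
    exact ⟨(a, b), ha, hb⟩
  choose κ hκ using hcov
  have hD : ∀ k l x, x ∈ (e k).source → x ∈ (e l).source →
      e k x ∈ Dom (k.1 != l.1) (k.2 != l.2) := fun k l x hk hl =>
    ⟨fun h h0 => c4 _ _ _ hk.1 hl.1 h (Subtype.ext ((mfb_P _ (d k.2 x.2)).symm.trans h0)),
      fun h h0 => d4 _ _ _ hk.2 hl.2 h (Subtype.ext ((mfb_Q (c k.1 x.1) _).symm.trans h0))⟩
  have hI : ∀ k l, ∀ z ∈ Dom (k.1 != l.1) (k.2 != l.2),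
      e l ((e k).symm z) = iv (k.1 != l.1) (k.2 != l.2) z := fun k l z hz => by
    change (c l.1 ((c k.1).symm ⟨PP z, QQ_PP z⟩)).1 + (d l.2 ((d k.2).symm ⟨QQ z, PP_QQ z⟩)).1 = _
    rw [c5 _ _ _ fun h h0 => hz.1 h (congrArg Subtype.val h0),
      d5 _ _ _ fun h h0 => hz.2 h (congrArg Subtype.val h0), iv, b1_self, b2_self]
    rfl
  let C : ChartedSpace EE (OnePoint mfb_V × OnePoint mfb_W) :=
    ⟨range e, fun x => e (κ x), hκ, fun x => mem_range_self _⟩
  refine ⟨OnePoint mfb_V × OnePoint mfb_W, inferInstance, C, isManifold_of_contDiffOn _ _ _ ?_,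
    inferInstance, inferInstance, inferInstance, e,
    fun f => decide (∃ q, (OnePoint.infty, q) ∈ f.source), rfl, fun k => ?_, et, hD, hI⟩
  · rintro _ _ ⟨k, rfl⟩ ⟨l, rfl⟩
    have h1 : ∀ z ∈ ((e k).symm ≫ₕ e l).source, z ∈ Dom (k.1 != l.1) (k.2 != l.2) := fun z hz => by
      have h2 := hD k l _ ((e k).map_target hz.1) hz.2
      rwa [(e k).right_inv hz.1] at h2
    exact ContDiffOn.congr (fun z hz => (contDiffAt_iv (h1 z hz.1)).contDiffWithinAt)
      fun z hz => hI k l z (h1 z hz.1)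
  · rw [Bool.eq_iff_iff, decide_eq_true_iff, ← c3]
    exact ⟨fun ⟨_, h⟩ => h.1, fun h => ⟨_, h, (d k.2).map_target (x := 0) ((d1 k.2).symm ▸ mem_univ _)⟩⟩

end

end Vale.Agent.P244.G
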