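import Vale.Agent.P244.G.Defs

/-!
P244 G/Nat (TASK): naturality of the Ricci tensor.  Prefix helper names by `nat_`.  (`nat_key`, `nat_riem` are copied from P219/GeoM and complete.)
`nat_lin`: unfold `riem`, `LocMetric.loc_fderiv_chr`, `chrL_apply`: the map is `(fderiv chrL y).flip ..`; easiest is `IsLinearMap.mk'` or `LinearMap.mk` with `map_add`, `map_smul`, `simp`.
`nat_trace`: `LinearMap.trace_eq_sum_inner` with `EuclideanSpace.basisFun`, or `LinearMap.trace_eq_matrix_trace`.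
`ric_transform`: `D = fderiv τ y` is injective (`iso.self_of_nhds`, `h₁.pos`), hence a linear equivalence (`LinearEquiv.ofInjectiveEndo`); `D ∘ R₁ = R₂ ∘ D` (`nat_riem`), `LinearMap.trace_conj'` (or `trace_comp_comm`).
-/

namespace Vale.Agent.P244.G

open scoped ContDiff Topology RealInnerProductSpace
open Set Filter Vale.Agent.P255

noncomputable section

section

variable {E : Type*} [NormedAddCommGroup E] [NormedSpace ℝ E] [FiniteDimensional ℝ E]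

theorem nat_key {G₁ G₂ : E → E →L[ℝ] E →L[ℝ] ℝ} {U₁ U₂ : Set E} (h₁ : LocMetric G₁ U₁)
    (h₂ : LocMetric G₂ U₂) {τ : E → E} {y : E} (hy : y ∈ U₁) (hτy : τ y ∈ U₂)
    (hτ : ContDiffAt ℝ 3 τ y)
    (iso : ∀ᶠ z in 𝓝 y, ∀ u v, G₁ z u v = G₂ (τ z) (fderiv ℝ τ z u) (fderiv ℝ τ z v)) (u v w : E) :
    fderiv ℝ τ y (fderiv ℝ (fun z => chr G₁ z v w) y u + chr G₁ y u (chr G₁ y v w)) =
      fderiv ℝ (fderiv ℝ (fderiv ℝ τ)) y u v w +
        fderiv ℝ (chrL G₂) (τ y) (fderiv ℝ τ y u) (fderiv ℝ τ y v) (fderiv ℝ τ y w) +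
        chrL G₂ (τ y) (fderiv ℝ (fderiv ℝ τ) y u v) (fderiv ℝ τ y w) +
        chrL G₂ (τ y) (fderiv ℝ τ y v) (fderiv ℝ (fderiv ℝ τ) y u w) +
        chrL G₂ (τ y) (fderiv ℝ τ y u) (fderiv ℝ (fderiv ℝ τ) y v w) +
        chrL G₂ (τ y) (fderiv ℝ τ y u) (chrL G₂ (τ y) (fderiv ℝ τ y v) (fderiv ℝ τ y w)) := by
  have hτ2 : ContDiffAt ℝ 2 τ y := hτ.of_le (by norm_num)
  have hd : DifferentiableAt ℝ τ y := hτ.differentiableAt (by simp)
  have hD2 : ContDiffAt ℝ 2 (fderiv ℝ τ) y := hτ.fderiv_right (m := 2) (by norm_num)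
  have hD : DifferentiableAt ℝ (fderiv ℝ τ) y := hD2.differentiableAt (by simp)
  have hDD : DifferentiableAt ℝ (fderiv ℝ (fderiv ℝ τ)) y :=
    (hD2.fderiv_right (m := 1) (by norm_num)).differentiableAt (by simp)
  have ev : (fun z => fderiv ℝ τ z (chr G₁ z v w)) =ᶠ[𝓝 y] fun z =>
      fderiv ℝ (fderiv ℝ τ) z v w + chrL G₂ (τ z) (fderiv ℝ τ z v) (fderiv ℝ τ z w) := by
    filter_upwards [h₁.isOpen.mem_nhds hy, hd.continuousAt (h₂.isOpen.mem_nhds hτy),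
      hτ2.eventually (by simp), iso.eventually_nhds] with z z1 z2 z3 z4
    rw [chrL_apply]
    exact chr_transform h₁ h₂ z1 z2 z3 z4 v w
  have c1 : DifferentiableAt ℝ (fun z => chr G₁ z v w) y := by
    have := ((h₁.loc_diff_chrL hy).clm_apply (differentiableAt_const v)).clm_apply
      (differentiableAt_const w)
    simpa only [chrL_apply] using this
  have c2 : DifferentiableAt ℝ (fun z => chrL G₂ (τ z)) y :=
    DifferentiableAt.comp (G := E →L[ℝ] E →L[ℝ] E) (g := chrL G₂) (f := τ) y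
      (h₂.loc_diff_chrL hτy) hd
  have c3 : ∀ a : E, DifferentiableAt ℝ (fun z => fderiv ℝ τ z a) y := fun a =>
    hD.clm_apply (differentiableAt_const a)
  have c4 : DifferentiableAt ℝ (fun z => fderiv ℝ (fderiv ℝ τ) z v w) y :=
    (hDD.clm_apply (differentiableAt_const v)).clm_apply (differentiableAt_const w)
  have c5 : fderiv ℝ (fun z => chrL G₂ (τ z)) y u = fderiv ℝ (chrL G₂) (τ y) (fderiv ℝ τ y u) := by
    have := fderiv_fun_comp (G := E →L[ℝ] E →L[ℝ] E) (g := chrL G₂) (f := τ) y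
      (h₂.loc_diff_chrL hτy) hd
    rw [this]
    rfl
  have h := congrArg (fun L : E →L[ℝ] E => L u) ev.fderiv_eq
  rw [fderiv_clm_apply hD c1, fderiv_fun_add c4 ((c2.clm_apply (c3 v)).clm_apply (c3 w)),
    add_apply, add_apply,
    loc_fderiv_app2 c2 (c3 v) (c3 w), loc_fderiv_app2c hDD, loc_fderiv_app1c hD,
    loc_fderiv_app1c hD, c5, ContinuousLinearMap.comp_apply, ContinuousLinearMap.flip_apply] at h
  rw [map_add, chr_transform h₁ h₂ hy hτy hτ2 iso u, chr_transform h₁ h₂ hy hτy hτ2 iso v w,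
    ← chrL_apply G₂, ← chrL_apply G₂, map_add, ← add_assoc, h]
  abel

theorem nat_riem {G₁ G₂ : E → E →L[ℝ] E →L[ℝ] ℝ} {U₁ U₂ : Set E} (h₁ : LocMetric G₁ U₁)
    (h₂ : LocMetric G₂ U₂) {τ : E → E} {y : E} (hy : y ∈ U₁) (hτy : τ y ∈ U₂)
    (hτ : ContDiffAt ℝ 3 τ y)
    (iso : ∀ᶠ z in 𝓝 y, ∀ u v, G₁ z u v = G₂ (τ z) (fderiv ℝ τ z u) (fderiv ℝ τ z v)) (u v w : E) :
    fderiv ℝ τ y (riem G₁ y u v w) =
      riem G₂ (τ y) (fderiv ℝ τ y u) (fderiv ℝ τ y v) (fderiv ℝ τ y w) := by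
  have s2 : fderiv ℝ (fderiv ℝ τ) y u v = fderiv ℝ (fderiv ℝ τ) y v u :=
    (hτ.isSymmSndFDerivAt (by simp; norm_num)).eq u v
  have s3 : fderiv ℝ (fderiv ℝ (fderiv ℝ τ)) y u v = fderiv ℝ (fderiv ℝ (fderiv ℝ τ)) y v u :=
    ((hτ.fderiv_right (m := 2) (by norm_num)).isSymmSndFDerivAt (by simp)).eq u v
  have k1 := nat_key h₁ h₂ hy hτy hτ iso u v w
  have k2 := nat_key h₁ h₂ hy hτy hτ iso v u w
  have e1 : riem G₁ y u v w = (fderiv ℝ (fun z => chr G₁ z v w) y u + chr G₁ y u (chr G₁ y v w)) -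
      (fderiv ℝ (fun z => chr G₁ z u w) y v + chr G₁ y v (chr G₁ y u w)) := by
    unfold riem
    abel
  rw [e1, map_sub, k1, k2, s2, s3, riem, h₂.loc_fderiv_chr hτy, h₂.loc_fderiv_chr hτy]
  simp only [chrL_apply]
  abel

end

theorem nat_lin {G : EE → BF} {U : Set EE} (h : LocMetric G U) {y : EE} (hy : y ∈ U) (v w : EE) :
    ∃ R : EE →ₗ[ℝ] EE, ∀ u, R u = riem G y u v w := by
  have e : ∀ u, riem G y u v w = fderiv ℝ (chrL G) y u v w - fderiv ℝ (chrL G) y v u w +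
      chrL G y u (chrL G y v w) - chrL G y v (chrL G y u w) := fun u => by
    rw [riem, h.loc_fderiv_chr hy, h.loc_fderiv_chr hy]
    simp only [chrL_apply]
  refine ⟨IsLinearMap.mk' (fun u => riem G y u v w) ⟨fun a b => ?_, fun c a => ?_⟩, fun u => rfl⟩
  · simp only [e, map_add, add_apply]
    abel
  · simp only [e, map_smul, smul_apply, smul_add, smul_sub]

theorem nat_trace (R : EE →ₗ[ℝ] EE) : LinearMap.trace ℝ EE R = ∑ i, R (ee i) i := by
  rw [LinearMap.trace_eq_sum_inner R (EuclideanSpace.basisFun (Fin 11) ℝ)]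
  refine Finset.sum_congr rfl fun i _ => ?_
  rw [EuclideanSpace.basisFun_inner, EuclideanSpace.basisFun_apply]

theorem ric_transform {G₁ G₂ : EE → BF} {U₁ U₂ : Set EE} (h₁ : LocMetric G₁ U₁)
    (h₂ : LocMetric G₂ U₂) {τ : EE → EE} {y : EE} (hy : y ∈ U₁) (hτy : τ y ∈ U₂)
    (hτ : ContDiffAt ℝ 3 τ y)
    (iso : ∀ᶠ z in 𝓝 y, ∀ u v, G₁ z u v = G₂ (τ z) (fderiv ℝ τ z u) (fderiv ℝ τ z v)) (v w : EE) :
    ric G₁ y v w = ric G₂ (τ y) (fderiv ℝ τ y v) (fderiv ℝ τ y w) := by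
  obtain ⟨R₁, e₁⟩ := nat_lin h₁ hy v w
  obtain ⟨R₂, e₂⟩ := nat_lin h₂ hτy (fderiv ℝ τ y v) (fderiv ℝ τ y w)
  have inj : Function.Injective (fderiv ℝ τ y : EE →ₗ[ℝ] EE) := by
    refine (injective_iff_map_eq_zero _).2 fun u hu => ?_
    by_contra h0
    have h1 := h₁.pos y hy u h0
    rw [iso.self_of_nhds, show fderiv ℝ τ y u = 0 from hu, map_zero] at h1
    exact lt_irrefl _ h1
  have e : R₂ = (LinearEquiv.ofInjectiveEndo _ inj).conj R₁ := by
    refine LinearMap.ext fun u => ?_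
    obtain ⟨a, rfl⟩ := (LinearEquiv.ofInjectiveEndo _ inj).surjective u
    rw [LinearEquiv.conj_apply_apply, LinearEquiv.symm_apply_apply, e₁, e₂]
    exact (nat_riem h₁ h₂ hy hτy hτ iso a v w).symm
  have t := LinearMap.trace_conj' R₁ (LinearEquiv.ofInjectiveEndo _ inj)
  rw [← e, nat_trace, nat_trace] at t
  simp only [e₁, e₂] at t
  exact t.symm

end

end Vale.Agent.P244.G
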