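import Vale.Agent.P244.G.Defs

/-!
P244 G/Scal (TASK): positivity and scalar curvature of invariant forms.  Prefix helper names by `scal_`.
`Gm_pos`: if `q ≥ 0` clear; if `q < 0` use `b1_sq_le z u`: `p b1 u u + q (b1 z u)² ≥ (p + q s) b1 u u`; `u ≠ 0` gives `PP u ≠ 0` or `QQ u ≠ 0` (`PQ_add`, `b1_pos`, `b2_pos`).
`loc_Gm`: `ContDiff.smul`, `ContDiff.smulRight` (or `ContinuousLinearMap.smulRightL`), `b1.contDiff`; `b1_comm`, `b2_comm`.
`scal_Gm`: for `ξ = ee i` the vector `x = p⁻¹ • (PP ξ - (q / (p + q s) * b1 z ξ) • PP z) + h⁻¹ • QQ ξ` satisfies `Gm p q h z x w = b1 ξ w + b2 ξ w = w i` (`b1_sum`, `b2_sum`), so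
`(G z).inverse (proj i) = x` (`ContinuousLinearMap.IsInvertible.inverse_apply_eq`, `LocMetric.loc_inv`; or `ext_vec`).  Then sum with `tr_b1`, `tr_b2`, `tr_P`, `tr_Q`
(`b1 (ee i) (ee i) = PP (ee i) i`, `b1 z (ee i) = PP z i`).
-/

namespace Vale.Agent.P244.G

open scoped ContDiff Topology RealInnerProductSpace
open Set Filter Vale.Agent.P255

noncomputable section

theorem Gm_pos {p q h : ℝ} {z : EE} (hp : 0 < p) (hq : 0 < p + q * b1 z z) (hh : 0 < h) {u : EE}
    (hu : u ≠ 0) : 0 < Gm p q h z u u := by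
  rw [Gm_apply]
  have h1 := b1_sq_le z u
  have h2 := b1_nonneg u
  have h3 := b2_nonneg u
  have h4 : PP u ≠ 0 ∨ QQ u ≠ 0 := by
    by_contra hc
    push Not at hc
    apply hu
    rw [← PQ_add u, hc.1, hc.2, add_zero]
  have h5 : 0 ≤ p * b1 u u + q * (b1 z u * b1 z u) ∧
      (0 < b1 u u → 0 < p * b1 u u + q * (b1 z u * b1 z u)) := by
    rcases le_total 0 q with h0 | h0
    · have h6 : 0 ≤ q * (b1 z u * b1 z u) := mul_nonneg h0 (mul_self_nonneg _)
      have h7 := mul_nonneg hp.le h2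
      refine ⟨by linarith, fun h8 => ?_⟩
      have := mul_pos hp h8
      linarith
    · have h6 : q * (b1 z z * b1 u u) ≤ q * (b1 z u * b1 z u) := by
        rw [← sq]
        exact mul_le_mul_of_nonpos_left h1 h0
      have h7 := mul_nonneg hq.le h2
      refine ⟨by linarith, fun h8 => ?_⟩
      have := mul_pos hq h8
      linarith
  rcases h4 with h4 | h4
  · have h6 := h5.2 (b1_pos h4)
    have h7 := mul_nonneg hh.le h3
    linarith
  · have h6 := mul_pos hh (b2_pos h4)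
    linarith [h5.1]

theorem contDiffOn_Gm {X : Type} [NormedAddCommGroup X] [NormedSpace ℝ X] {S : Set X}
    {p q h : X → ℝ} {z : X → EE} (hp : ContDiffOn ℝ ∞ p S) (hq : ContDiffOn ℝ ∞ q S)
    (hh : ContDiffOn ℝ ∞ h S) (hz : ContDiffOn ℝ ∞ z S) :
    ContDiffOn ℝ ∞ (fun x => Gm (p x) (q x) (h x) (z x)) S := by
  rw [contDiffOn_clm_apply]
  intro u
  rw [contDiffOn_clm_apply]
  intro v
  have h1 : ∀ w : EE, ContDiffOn ℝ ∞ (fun x => b1 (z x) w) S := fun w => by
    simp only [fun x => b1_comm (z x) w]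
    exact (b1 w).contDiff.comp_contDiffOn hz
  simp only [Gm_apply]
  exact ((hp.mul contDiffOn_const).add (hq.mul ((h1 u).mul (h1 v)))).add (hh.mul contDiffOn_const)

theorem loc_Gm {p q h : EE → ℝ} (hp : ContDiff ℝ ∞ p) (hq : ContDiff ℝ ∞ q) (hh : ContDiff ℝ ∞ h)
    (p0 : ∀ z, 0 < p z) (q0 : ∀ z, 0 < p z + q z * b1 z z) (h0 : ∀ z, 0 < h z) :
    LocMetric (fun z => Gm (p z) (q z) (h z) z) univ := by
  refine ⟨isOpen_univ, contDiffOn_Gm hp.contDiffOn hq.contDiffOn hh.contDiffOn contDiffOn_id,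
    fun y _ u v => ?_, fun y _ u hu => Gm_pos (p0 y) (q0 y) (h0 y) hu⟩
  rw [Gm_apply, Gm_apply, b1_comm u v, b2_comm u v, mul_comm (b1 y u)]

theorem scal_b1e (z : EE) (i : Fin 11) : b1 z (ee i) = PP z i := by
  rw [b1_sum, PP_apply, Finset.sum_eq_single i]
  · split_ifs <;> simp
  · intro j _ hj
    split_ifs <;> simp [hj]
  · simp

theorem scal_b2e (z : EE) (i : Fin 11) : b2 z (ee i) = QQ z i := by
  rw [b2_sum, QQ_apply, Finset.sum_eq_single i]
  · split_ifs <;> simp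
  · intro j _ hj
    split_ifs <;> simp [hj]
  · simp

theorem scal_b12 (w : EE) (i : Fin 11) : b1 (ee i) w + b2 (ee i) w = w i := by
  rw [b1_comm, b2_comm, scal_b1e, scal_b2e, PP_apply, QQ_apply]
  split_ifs <;> simp

theorem scal_inv {G : EE → BF} (hG : LocMetric G univ) {z : EE} {p q h : ℝ} (hp : 0 < p)
    (hq : 0 < p + q * b1 z z) (hh : 0 < h) (e : G z = Gm p q h z) (i : Fin 11) :
    (G z).inverse (EuclideanSpace.proj i) =
      p⁻¹ • (PP (ee i) - (q / (p + q * b1 z z) * b1 z (ee i)) • PP z) + h⁻¹ • QQ (ee i) := by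
  refine hG.ext_vec (mem_univ z) fun w => ?_
  rw [(hG.loc_inv (mem_univ z)).self_apply_inverse, e, Gm_apply]
  have h1 : (EuclideanSpace.proj i : EE →L[ℝ] ℝ) w = w i := rfl
  rw [h1, ← scal_b12 w i]
  simp only [map_add, map_smul, map_sub, add_apply, smul_apply, sub_apply, smul_eq_mul,
    b1_P_left, b1_P_right, b1_Q_left, b1_Q_right, b2_P_left, b2_Q_left]
  have hp' := hp.ne'
  have hq' := hq.ne'
  have hh' := hh.ne'
  field_simp
  ring

theorem scal_Gm {G : EE → BF} (hG : LocMetric G univ) {z : EE} {p q h a b c : ℝ} (hp : 0 < p)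
    (hq : 0 < p + q * b1 z z) (hh : 0 < h) (e : G z = Gm p q h z)
    (hr : ∀ v w, ric G z v w = Gm a b c z v w) :
    scal G z = 5 * a / p + (a + b * b1 z z) / (p + q * b1 z z) + 5 * c / h := by
  have hp' := hp.ne'
  have hq' := hq.ne'
  have hh' := hh.ne'
  have key : ∀ i : Fin 11, ric G z (ee i) ((G z).inverse (EuclideanSpace.proj i)) =
      a / p * PP (ee i) i + (b - a * q / p) / (p + q * b1 z z) * (b1 z (ee i) * PP z i) +
        c / h * QQ (ee i) i := by
    intro i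
    rw [hr, scal_inv hG hp hq hh e, Gm_apply, ← scal_b1e, ← scal_b1e, ← scal_b2e]
    simp only [map_add, map_smul, map_sub, smul_eq_mul,
      b1_P_right, b1_Q_right, b2_P_right, b2_Q_right, b1_comm (ee i) z]
    field_simp
    ring
  have h1 : scal G z = ∑ i : Fin 11, ric G z (ee i) ((G z).inverse (EuclideanSpace.proj i)) := rfl
  rw [h1, Finset.sum_congr rfl fun i _ => key i, Finset.sum_add_distrib, Finset.sum_add_distrib,
    ← Finset.mul_sum, ← Finset.mul_sum, ← Finset.mul_sum, tr_P, tr_Q, tr_b1, b1_P_right]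
  field_simp
  ring

end

end Vale.Agent.P244.G
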