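import Vale.Agent.P244.G.Yf
import Vale.Agent.P244.G.Scal

/-!
P244 G/Smooth (TASK): smoothness and positivity of the flow.  Prefix helper names by `smo_`.
`Sm` unfolds to `ContDiffOn`; `sm_Yf`, `sm_comp`, `Yf_mem`, `Sm.dY (ti_Ico h.pos)`, `ContDiffOn.exp`, `contDiffOn_fst`, `contDiffOn_snd`.
`one_add_mu`, `one_add_mc`: `1 - yy z = (1 + s)⁻¹`, `yy z = s / (1 + s)`, `field_simp`, `ring`.  `kc_pos`: `one_sub_Yf`, `yy z < 1`.  `kc_mul`: `Yf_mul`.
-/

namespace Vale.Agent.P244.G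

open scoped ContDiff Topology RealInnerProductSpace
open Set Filter Vale.Agent.P255

noncomputable section

variable {T t : ℝ} {D : Tri}

theorem sm_chi {I : Set ℝ} (hI : TI I) {A β B : Fn} (hA : Sm I A) (hβ : Sm I β) (hB : Sm I B) :
    Sm I (chi A β B) := by
  exact ContDiffOn.sub hB ((contDiffOn_const.mul (ContDiffOn.exp (contDiffOn_const.mul hA))).mul
    ((contDiffOn_const.mul (hA.dY hI)).add (contDiffOn_const.mul (hβ.dY hI))))

theorem Dat.sm_Y (h : Dat T D) : Sm (Ico 0 T) D.Y := by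
  exact sm_Yf h.smL

theorem Dat.sm_Pc (h : Dat T D) : Sm (Ico 0 T) D.Pc := by
  exact (ContDiffOn.exp (contDiffOn_const.mul (sm_comp h.smA h.sm_Y fun _ _ _ hy => Yf_mem hy _))).mul
    ((ContDiffOn.exp (contDiffOn_const.mul h.smL)).mul ((contDiffOn_const.sub h.sm_Y).pow 2))

theorem Dat.sm_Qc (h : Dat T D) : Sm (Ico 0 T) D.Qc := by
  have a := h.smL.dY (ti_Ico h.pos)
  exact ContDiffOn.mul h.sm_Pc
    ((contDiffOn_const.mul ((contDiffOn_const.sub contDiffOn_snd).pow 2)).mul (ContDiffOn.add a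
      ((contDiffOn_snd.mul (contDiffOn_const.sub contDiffOn_snd)).mul (ContDiffOn.pow a 2))))

theorem Dat.sm_Hc (h : Dat T D) : Sm (Ico 0 T) D.Hc := by
  exact ContDiffOn.exp (contDiffOn_const.mul (sm_comp h.smβ h.sm_Y fun _ _ _ hy => Yf_mem hy _))

theorem smo_y (z : EE) : (1 - yy z) * b1 z z = yy z := by
  rw [one_sub_yy, yy, div_eq_inv_mul]

theorem smo_lt (z : EE) : 0 < 1 - yy z := by
  have := b1_nonneg z
  rw [one_sub_yy]
  positivity

theorem one_add_mc (D : Tri) (t : ℝ) (z : EE) :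
    1 + D.mc t (yy z) * b1 z z = D.Wc t (yy z) := by
  simp only [Tri.mc, Tri.Wc]
  linear_combination 2 * (1 - yy z) * dY D.L t (yy z) * smo_y z

theorem mu_eq (D : Tri) (t : ℝ) (z : EE) :
    D.mu t (yy z) = 2 * D.mc t (yy z) + D.mc t (yy z) ^ 2 * b1 z z := by
  simp only [Tri.mc, Tri.mu]
  linear_combination (-4) * (1 - yy z) ^ 3 * dY D.L t (yy z) ^ 2 * smo_y z

theorem one_add_mu (D : Tri) (t : ℝ) (z : EE) :
    1 + D.mu t (yy z) * b1 z z = D.Wc t (yy z) ^ 2 := by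
  rw [mu_eq, ← one_add_mc]
  ring

theorem kc_pos (D : Tri) (t : ℝ) (z : EE) : 0 < D.kc t (yy z) := by
  have := div_pos (smo_lt z) (Dn_pos (yy_mem z) (D.L t (yy z)))
  simp only [Tri.kc, Tri.Y, one_sub_Yf (yy_mem z)]
  positivity

theorem kc_mul (D : Tri) (t : ℝ) (z : EE) :
    D.kc t (yy z) * b1 z z = D.Y t (yy z) * (1 - D.Y t (yy z)) := by
  simp only [Tri.kc, Tri.Y]
  rw [Yf_mul (yy_mem z), one_sub_Yf (yy_mem z), div_pow]
  linear_combination Real.exp (2 * D.L t (yy z)) / Dn (yy z) (D.L t (yy z)) ^ 2 * (1 - yy z) * smo_y z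

theorem Dat.contDiffOn_Gt (h : Dat T D) :
    ContDiffOn ℝ ∞ (fun p : ℝ × EE => D.Gt p.1 p.2) (Ico 0 T ×ˢ univ) := by
  exact contDiffOn_Gm (contDiffOn_comp_yy h.sm_Pc) (contDiffOn_comp_yy h.sm_Qc)
    ((contDiffOn_comp_yy h.sm_Hc).mul (contDiff_sg.comp contDiff_snd).contDiffOn) contDiffOn_snd

theorem Dat.loc_Gt (h : Dat T D) (ht : t ∈ Ico 0 T) : LocMetric (D.Gt t) univ := by
  have a : ∀ z, 0 < D.Pc t (yy z) := fun z => mul_pos (Real.exp_pos _) (kc_pos D t z)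
  refine loc_Gm (contDiff_comp_yy (h.sm_Pc.slice ht)) (contDiff_comp_yy (h.sm_Qc.slice ht))
    ((contDiff_comp_yy (h.sm_Hc.slice ht)).mul contDiff_sg) a (fun z => ?_)
    fun z => mul_pos (Real.exp_pos _) (sg_pos z)
  have b := mul_pos (a z) (pow_pos (h.posL t ht _ (yy_mem z)) 2)
  have c := one_add_mu D t z
  rw [Tri.Wc] at c
  rw [← c] at b
  rw [Tri.Qc]
  linarith

end

end Vale.Agent.P244.G
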