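import Vale.Agent.P244.G.Hat
import Vale.Agent.P244.G.Smooth
import Vale.Agent.P244.G.Nat

/-!
P244 G/Pull (TASK): the flow is the pull-back of `Gh` by `ps`.  Prefix helper names by `pull_`.
`fderiv_ps`: `hasFDerivAt_comp_yy`, `Sm.hasY`, `HasFDerivAt.exp`, `HasFDerivAt.smul`, `PP.hasFDerivAt`.  With `l = L t (yy z)`, `Z = ps t z`, `Du = fderiv (ps t) z u`:
`b1 Z Z = e^{2l} s`, `b2 Z Z = r`, `b1 Du Dv = e^{2l} (b1 u v + mu (b1 z u) (b1 z v))` (`mu_eq`), `b1 Z Du = e^{2l} Wc b1 z u` (`one_add_mc`), `b2 Du Dv = b2 u v` (`simp`, `b1_comm`; `exp (2 l) = exp l ^ 2`).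
`yy_ps`: unfold `yy`, `Tri.Y`, `Yf`, `Dn`, `field_simp`.  `Gt_pull`: `Gh_eq`, `pull_Gm`.  `ric_Gt`: `ric_transform`, `ric_Gh`, `pull_Gm`.
`scal_Gt`: `scal_Gm`, `one_add_mu`, `kc_mul`, `kc_pos`, `h.posL`: the value is `exp (-2 A) (6 r1 - 4 Y (1 - Y) r0) + 5 r2` at `Y`, which is `Rf` by `ring` (`exp (2 A) exp (-2 A) = 1`).
-/

namespace Vale.Agent.P244.G

open scoped ContDiff Topology RealInnerProductSpace
open Set Filter Vale.Agent.P255

noncomputable section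

variable {T t : ℝ} {D : Tri}

theorem contDiff_ps (h : Dat T D) (ht : t ∈ Ico 0 T) : ContDiff ℝ ∞ (D.ps t) := by
  exact (((contDiff_comp_yy (h.smL.slice ht)).exp).smul PP.contDiff).add QQ.contDiff

theorem fderiv_ps (h : Dat T D) (ht : t ∈ Ico 0 T) (z u : EE) : fderiv ℝ (D.ps t) z u =
    Real.exp (D.L t (yy z)) • (PP u + (D.mc t (yy z) * b1 z u) • PP z) + QQ u := by
  have h1 := (((hasFDerivAt_comp_yy (h.smL.hasY ht (yy_mem z))).exp).fun_smul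
    PP.hasFDerivAt).fun_add QQ.hasFDerivAt
  have h2 : HasFDerivAt (D.ps t) _ z := h1
  rw [h2.fderiv]
  simp only [add_apply, smul_apply, ContinuousLinearMap.smulRight_apply,
    smul_eq_mul, smul_add, smul_smul, Tri.mc, mul_assoc]

theorem pull_exp (l : ℝ) : Real.exp (2 * l) = Real.exp l * Real.exp l := by
  rw [← Real.exp_add, two_mul]

theorem pull_b1 (D : Tri) (t : ℝ) (z : EE) :
    b1 (D.ps t z) (D.ps t z) = Real.exp (2 * D.L t (yy z)) * b1 z z := by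
  rw [pull_exp, Tri.ps]
  simp only [map_add, map_smul, add_apply, smul_apply, smul_eq_mul, b1_P_left,
    b1_P_right, b1_Q_left, b1_Q_right]
  ring

theorem pull_b2 (D : Tri) (t : ℝ) (z : EE) : b2 (D.ps t z) (D.ps t z) = b2 z z := by
  rw [Tri.ps]
  simp only [map_add, map_smul, add_apply, smul_apply, smul_eq_mul, b2_P_left,
    b2_P_right, b2_Q_left, b2_Q_right]
  ring

theorem yy_ps (D : Tri) (t : ℝ) (z : EE) : yy (D.ps t z) = D.Y t (yy z) := by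
  have hs := b1_nonneg z
  have hE := Real.exp_pos (2 * D.L t (yy z))
  have e : D.Y t (yy z) = Yf (yy z) (D.L t (yy z)) := rfl
  rw [e, yy, pull_b1, Yf, Dn]
  generalize Real.exp (2 * D.L t (yy z)) = E at hE ⊢
  rw [yy]
  generalize b1 z z = s at hs ⊢
  have e2 : 1 - s / (1 + s) + s / (1 + s) * E = (1 + E * s) / (1 + s) := by
    field_simp
    ring
  rw [e2]
  field_simp

theorem sg_ps (D : Tri) (t : ℝ) (z : EE) : sg (D.ps t z) = sg z := by
  rw [sg, pull_b2, sg]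

theorem pull_Gm (h : Dat T D) (ht : t ∈ Ico 0 T) (a b c : ℝ) (z u v : EE) :
    Gm a b c (D.ps t z) (fderiv ℝ (D.ps t) z u) (fderiv ℝ (D.ps t) z v) =
      Gm (Real.exp (2 * D.L t (yy z)) * a) (Real.exp (2 * D.L t (yy z)) * a * D.mu t (yy z) +
        b * (Real.exp (2 * D.L t (yy z)) * D.Wc t (yy z)) ^ 2) c z u v := by
  rw [fderiv_ps h ht, fderiv_ps h ht, mu_eq, ← one_add_mc, pull_exp, Gm_apply, Gm_apply, Tri.ps]
  simp only [map_add, map_smul, add_apply, smul_apply, smul_eq_mul, b1_P_left,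
    b1_P_right, b1_Q_left, b1_Q_right, b2_P_left, b2_P_right, b2_Q_left, b2_Q_right, b1_comm u z]
  ring

theorem Gt_pull (h : Dat T D) (ht : t ∈ Ico 0 T) (z u v : EE) : D.Gt t z u v =
    D.Gh t (D.ps t z) (fderiv ℝ (D.ps t) z u) (fderiv ℝ (D.ps t) z v) := by
  rw [Gh_eq, pull_Gm h ht, yy_ps, sg_ps, Tri.Gt, Gm_apply, Gm_apply]
  simp only [Tri.Qc, Tri.Pc, Tri.kc, Tri.Hc]
  ring

theorem ric_Gt (h : Dat T D) (ht : t ∈ Ico 0 T) (z v w : EE) : ric (D.Gt t) z v w =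
    Gm (D.Ra t (yy z)) (D.Rb t (yy z)) (D.Rc t (yy z) * sg z) z v w := by
  rw [ric_transform (h.loc_Gt ht) (loc_Gh h ht) (mem_univ z) (mem_univ _)
    ((contDiff_ps h ht).contDiffAt.of_le ENat.LEInfty.out)
    (Eventually.of_forall fun x u v => Gt_pull h ht x u v), ric_Gh h ht, pull_Gm h ht, yy_ps, sg_ps,
    Gm_apply, Gm_apply]
  simp only [Tri.Rb, Tri.Ra, Tri.Rc, Tri.kc, Tri.Hc]
  ring

theorem scal_Gt (h : Dat T D) (ht : t ∈ Ico 0 T) (z : EE) :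
    scal (D.Gt t) z = Rf D.A D.β t (D.Y t (yy z)) := by
  have hk := kc_pos D t z
  have hW : 0 < D.Wc t (yy z) := h.posL t ht _ (yy_mem z)
  have hs := sg_pos z
  have hA := Real.exp_pos (2 * D.A t (D.Y t (yy z)))
  have hH : 0 < D.Hc t (yy z) := Real.exp_pos _
  have hP : 0 < D.Pc t (yy z) := mul_pos hA hk
  have e1 : D.Pc t (yy z) + D.Qc t (yy z) * b1 z z = D.Pc t (yy z) * D.Wc t (yy z) ^ 2 := by
    rw [← one_add_mu, Tri.Qc]
    ring
  have e2 : D.Ra t (yy z) + D.Rb t (yy z) * b1 z z = D.kc t (yy z) * D.Wc t (yy z) ^ 2 *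
      (r1 D.A D.β t (D.Y t (yy z)) - 4 * (D.Y t (yy z) * (1 - D.Y t (yy z))) *
        r0 D.A D.β t (D.Y t (yy z))) := by
    have a := one_add_mu D t z
    rw [← kc_mul, Tri.Rb, Tri.Ra]
    linear_combination D.kc t (yy z) * r1 D.A D.β t (D.Y t (yy z)) * a
  have e3 : Real.exp (-2 * D.A t (D.Y t (yy z))) = (Real.exp (2 * D.A t (D.Y t (yy z))))⁻¹ := by
    rw [← Real.exp_neg, neg_mul]
  have e4 : Rf D.A D.β t (D.Y t (yy z)) = Real.exp (-2 * D.A t (D.Y t (yy z))) *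
      (6 * r1 D.A D.β t (D.Y t (yy z)) - 4 * (D.Y t (yy z) * (1 - D.Y t (yy z))) *
        r0 D.A D.β t (D.Y t (yy z))) + 5 * r2 D.A D.β t (D.Y t (yy z)) := by
    simp only [Rf, r0, r1, r2]
    ring
  rw [scal_Gm (h.loc_Gt ht) hP (e1 ▸ mul_pos hP (pow_pos hW 2)) (mul_pos hH hs) rfl
    (ric_Gt h ht z), e1, e2, e4, e3, Tri.Ra, Tri.Rc, Tri.Pc]
  field_simp
  ring

end

end Vale.Agent.P244.G
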