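import Vale.Agent.P244.G.Smooth

/-!
P244 G/Time (TASK): time derivatives of the coefficients.  Prefix helper names by `time_`.  Write `Y = D.Y t y`, `V = Y (1 - Y)`, `χ = chi .. t Y`, `w = exp (-2 A)`.
`hasT_Y`: `hasDerivAt_Yf_l`, `h.eqL` (`HasDerivAt.comp_hasDerivWithinAt`).  `hasT_kc`: product rule.  `dY_chi`: `dY_eq`, `Sm.hasY` for `B, A, dY A, dY β`, `h.eqB`, `ring`.
`hasT_Pc`, `hasT_Hc`: `hasT_comp` with `dT A = rhsA` (`dT_eq`, `h.eqA`); `rhsA - χ (1 - 2 Y + 2 V dY A) = - w r1`, `rhsB - 2 V χ dY β = - r2` (unfold, `ring`; `exp (2 A) exp (-2 A) = 1`).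
`hasT_dL`: `Sm.hasT_dY` with `F t y = -chi t (D.Y t y)`, whose `dY` is `-dY chi * (exp (2 L) / Dn²) Wc` (`hasY_Yf`, `HasDerivWithinAt.comp`, `dY_eq`); `(1 - y)² exp (2 L) / Dn² = kc` (`one_sub_Yf`).
`hasT_Qc`: `mu' = 4 (1 - y)² Wc (dY L)'`, so `Pc mu' = 8 kc² r0 Wc²`.
-/

namespace Vale.Agent.P244.G

open scoped ContDiff Topology RealInnerProductSpace
open Set Filter Vale.Agent.P255

noncomputable section

variable {T t y : ℝ} {D : Tri}

theorem hasT_Y (h : Dat T D) (ht : t ∈ Ico 0 T) (hy : y ∈ Icc (0 : ℝ) 1) :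
    HasDerivWithinAt (fun s => D.Y s y)
      (-2 * (D.Y t y * (1 - D.Y t y)) * chi D.A D.β D.B t (D.Y t y)) (Ico 0 T) t := by
  refine ((hasDerivAt_Yf_l hy (D.L t y)).comp_hasDerivWithinAt t (h.eqL t ht y hy)).congr_deriv ?_
  simp only [Tri.Y]
  ring

theorem hasT_kc (h : Dat T D) (ht : t ∈ Ico 0 T) (hy : y ∈ Icc (0 : ℝ) 1) :
    HasDerivWithinAt (fun s => D.kc s y)
      (-2 * (1 - 2 * D.Y t y) * chi D.A D.β D.B t (D.Y t y) * D.kc t y) (Ico 0 T) t := by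
  refine (((h.eqL t ht y hy).const_mul 2).exp.fun_mul
    (((hasT_Y h ht hy).const_sub 1).fun_pow 2)).congr_deriv ?_
  simp only [Tri.kc]
  norm_num
  ring

theorem dY_chi (h : Dat T D) (ht : t ∈ Ico 0 T) (hy : y ∈ Icc (0 : ℝ) 1) :
    dY (chi D.A D.β D.B) t y = -2 * Real.exp (-2 * D.A t y) * r0 D.A D.β t y := by
  have hI := ti_Ico h.pos
  refine dY_eq hy (((h.smB.hasY ht hy).fun_sub
    ((((h.smA.hasY ht hy).const_mul (-2)).exp.const_mul 2).fun_mul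
      ((((h.smA.dY hI).hasY ht hy).const_mul 4).fun_add
        (((h.smβ.dY hI).hasY ht hy).const_mul 5)))).congr_deriv ?_)
  rw [h.eqB t ht y hy]
  simp only [r0]
  ring

theorem time_exp (a : ℝ) : Real.exp (2 * a) * Real.exp (-2 * a) = 1 := by
  rw [← Real.exp_add]
  simp

theorem time_comp (h : Dat T D) (ht : t ∈ Ico 0 T) (hy : y ∈ Icc (0 : ℝ) 1) {u : Fn}
    (hu : Sm (Ico 0 T) u) {d : ℝ}
    (hd : HasDerivWithinAt (fun s => u s (D.Y t y)) d (Ico 0 T) t) :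
    HasDerivWithinAt (fun s => Real.exp (2 * u s (D.Y s y))) (Real.exp (2 * u t (D.Y t y)) *
      (2 * (d + dY u t (D.Y t y) *
        (-2 * (D.Y t y * (1 - D.Y t y)) * chi D.A D.β D.B t (D.Y t y))))) (Ico 0 T) t := by
  have h1 := hasT_comp (ti_Ico h.pos) hu (Y := fun s => D.Y s y) ht (fun s _ => Yf_mem hy _)
    (hasT_Y h ht hy)
  rw [dT_eq (ti_Ico h.pos) ht hd] at h1
  exact (h1.const_mul 2).exp

theorem hasT_Pc (h : Dat T D) (ht : t ∈ Ico 0 T) (hy : y ∈ Icc (0 : ℝ) 1) :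
    HasDerivWithinAt (fun s => D.Pc s y) (-2 * D.Ra t y) (Ico 0 T) t := by
  refine ((time_comp h ht hy h.smA (h.eqA t ht _ (Yf_mem hy _))).fun_mul
    (hasT_kc h ht hy)).congr_deriv ?_
  have e : rhsA D.A D.B t (D.Y t y) - chi D.A D.β D.B t (D.Y t y) *
      (1 - 2 * D.Y t y + 2 * (D.Y t y * (1 - D.Y t y)) * dY D.A t (D.Y t y)) =
      -Real.exp (-2 * D.A t (D.Y t y)) * r1 D.A D.β t (D.Y t y) := by
    simp only [rhsA, DD, chi, r1]
    ring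
  simp only [Tri.Ra]
  change _ * (2 * (rhsA D.A D.B t (D.Y t y) + _)) * _ + _ = _
  linear_combination (2 * Real.exp (2 * D.A t (D.Y t y)) * D.kc t y) * e +
    (-2 * D.kc t y * r1 D.A D.β t (D.Y t y)) * time_exp (D.A t (D.Y t y))

theorem hasT_Hc (h : Dat T D) (ht : t ∈ Ico 0 T) (hy : y ∈ Icc (0 : ℝ) 1) :
    HasDerivWithinAt (fun s => D.Hc s y) (-2 * D.Rc t y) (Ico 0 T) t := by
  refine (time_comp h ht hy h.smβ (h.eqβ t ht (D.Y t y) (Yf_mem hy _))).congr_deriv ?_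
  simp only [Tri.Rc, Tri.Hc, rhsB, DD, chi, r2]
  ring

theorem hasT_dL (h : Dat T D) (ht : t ∈ Ico 0 T) (hy : y ∈ Icc (0 : ℝ) 1) :
    HasDerivWithinAt (fun s => dY D.L s y)
      (2 * Real.exp (-2 * D.A t (D.Y t y)) * r0 D.A D.β t (D.Y t y) *
        (Real.exp (2 * D.L t y) / Dn y (D.L t y) ^ 2 * D.Wc t y)) (Ico 0 T) t := by
  have hI := ti_Ico h.pos
  have h1 := h.smL.hasT_dY hI (F := fun t y => -chi D.A D.β D.B t (D.Y t y)) h.eqL t ht y hy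
  have h2 := (((sm_chi hI h.smA h.smβ h.smB).hasY ht (Yf_mem hy (D.L t y))).comp y
    (hasY_Yf hy (h.smL.hasY ht hy)) fun z hz => Yf_mem hz _).fun_neg
  rw [dY_eq (u := fun t y => -chi D.A D.β D.B t (D.Y t y)) hy h2,
    dY_chi h ht (Yf_mem hy (D.L t y))] at h1
  refine h1.congr_deriv ?_
  simp only [Tri.Y, Tri.Wc]
  ring

theorem hasT_Qc (h : Dat T D) (ht : t ∈ Ico 0 T) (hy : y ∈ Icc (0 : ℝ) 1) :
    HasDerivWithinAt (fun s => D.Qc s y) (-2 * D.Rb t y) (Ico 0 T) t := by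
  have h1 := hasT_dL h ht hy
  refine ((hasT_Pc h ht hy).fun_mul ((h1.fun_add ((h1.fun_pow 2).const_mul
    (y * (1 - y)))).const_mul (4 * (1 - y) ^ 2))).congr_deriv ?_
  have e : (1 - y) ^ 2 * (Real.exp (2 * D.L t y) / Dn y (D.L t y) ^ 2) = D.kc t y := by
    simp only [Tri.kc, Tri.Y, one_sub_Yf hy]
    ring
  simp only [Tri.Rb, Tri.mu, Tri.Pc, Tri.Wc, Nat.cast_ofNat, Nat.add_one_sub_one, pow_one]
  generalize Real.exp (2 * D.L t y) / Dn y (D.L t y) ^ 2 = k at e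
  rw [← e]
  linear_combination (8 * ((1 - y) ^ 2 * k) ^ 2 * r0 D.A D.β t (D.Y t y) *
    (1 + 2 * (y * (1 - y)) * dY D.L t y) ^ 2) * time_exp (D.A t (D.Y t y))

end

end Vale.Agent.P244.G
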