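import Vale.Agent.P244.G.OdeC
import Vale.Agent.P244.G.Pull
import Vale.Agent.P244.G.Time
import Vale.Agent.P244.G.Inv
import Vale.Agent.P244.G.MfdB

/-!
P244 G/Main (helper45): assembly of block G.
-/

namespace Vale.Agent.P244.G

open scoped ContDiff Topology RealInnerProductSpace Manifold
open Set Filter Vale.Agent.P255

noncomputable section

theorem main_flow {T t : ℝ} {D : Tri} (h : Dat T D) (ht : t ∈ Ico 0 T) (z v w : EE) :
    HasDerivWithinAt (fun s => D.Gt s z v w) (-2 * ric (D.Gt t) z v w) (Ico 0 T) t := by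
  have h1 := (((hasT_Pc h ht (yy_mem z)).mul_const (b1 v w)).fun_add
    ((hasT_Qc h ht (yy_mem z)).mul_const (b1 z v * b1 z w))).fun_add
    (((hasT_Hc h ht (yy_mem z)).mul_const (sg z)).mul_const (b2 v w))
  rw [ric_Gt h ht, Gm_apply]
  simp only [Tri.Gt, Gm_apply]
  refine h1.congr_deriv ?_
  ring

theorem main_scal {T C : ℝ} {D : Tri} (h : Dat T D)
    (hR : ∀ t ∈ Ico 0 T, ∀ y ∈ Icc (0 : ℝ) 1, |Rf D.A D.β t y| ≤ C) (a : Bool) {t : ℝ}
    (ht : t ∈ Ico 0 T) (z : EE) : |scal ((D.sw a).Gt t) z| ≤ C := by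
  rw [scal_Gt (h.sw a) ht]
  have hm : (D.sw a).Y t (yy z) ∈ Icc (0 : ℝ) 1 := Yf_mem (yy_mem z) _
  cases a
  · exact hR t ht _ hm
  · have := Rf_refl h ht hm
    change |Rf D.refl.A D.refl.β t (D.refl.Y t (yy z))| ≤ C
    change Rf D.refl.A D.refl.β t (D.refl.Y t (yy z)) = _ at this
    rw [this]
    exact hR t ht _ ⟨by linarith [hm.2], by linarith [hm.1]⟩

theorem main_val (D : Tri) (t : ℝ) : D.Gt t 0 (ee 6) (ee 6) = 4 * Real.exp (D.β t 0) ^ 2 := by
  have h1 : b1 (ee 6) (ee 6) = 0 := by simp [b1_sum, Fin.sum_univ_succ]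
  have h2 : b2 (ee 6) (ee 6) = 1 := by simp [b2_sum, Fin.sum_univ_succ]
  simp only [Tri.Gt, Gm_apply, h1, h2, Tri.Hc, Tri.Y, yy, sg, Yf, map_zero, zero_apply]
  rw [← Real.exp_nat_mul]
  simp
  ring

theorem main_geom {T C : ℝ} {D : Tri} (h : Dat T D)
    (hR : ∀ t ∈ Ico 0 T, ∀ y ∈ Icc (0 : ℝ) 1, |Rf D.A D.β t y| ≤ C)
    (hd : ∀ ε > 0, ∃ t ∈ Ico 0 T, Real.exp (D.β t 0) < ε) : Counterexample := by
  classical
  obtain ⟨M, _, _, h1, h2, h3, h4, c, idx, hat, hidx, htar, hdom, htr⟩ := exists_mfd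
  have hT := h.pos
  let τ : ℝ → ℝ := fun t => if t ∈ Ico 0 T then t else 0
  have hτ : ∀ t, τ t ∈ Ico 0 T := fun t => by
    by_cases ht : t ∈ Ico 0 T
    · simp only [τ, if_pos ht, ht]
    · simp only [τ, if_neg ht]
      exact ⟨le_rfl, hT⟩
  have hτ' : ∀ t ∈ Ico 0 T, τ t = t := fun t ht => if_pos ht
  let g : ℝ → Metric EE M := fun t =>
    { g := fun e => (D.sw (idx e)).Gt (τ t)
      smooth := fun e _ => ((h.sw _).loc_Gt (hτ t)).smooth.mono (subset_univ _)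
      symm := fun e _ y _ => ((h.sw _).loc_Gt (hτ t)).symm y (mem_univ _)
      pos := fun e _ y _ => ((h.sw _).loc_Gt (hτ t)).pos y (mem_univ _)
      compat := by
        intro e he e' he' x hx hx' u v
        rw [hat] at he he'
        obtain ⟨k, rfl⟩ := he
        obtain ⟨l, rfl⟩ := he'
        have hz := hdom k l x hx hx'
        have ev : (c l ∘ (c k).symm) =ᶠ[𝓝 (c k x)] iv (k.1 != l.1) (k.2 != l.2) := by
          filter_upwards [(isOpen_Dom _ _).mem_nhds hz] with z hz' using htr k l z hz'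
        have e1 : c l x = iv (k.1 != l.1) (k.2 != l.2) (c k x) := by
          rw [← htr k l _ hz, (c k).left_inv hx]
        rw [ev.fderiv_eq, e1, hidx, hidx, Gt_iv (h.sw k.1) (hτ t) hz, sw_sw] }
  have hg : ∀ t ∈ Ico 0 T, ∀ e, (g t).g e = (D.sw (idx e)).Gt t := fun t ht e => by
    simp only [g, hτ' t ht]
  refine ⟨11, M, inferInstance, inferInstance, by norm_num, h1, h2, h3, h4, T, hT, g,
    ⟨fun e _ => ?_, fun e _ y _ t ht v w => ?_⟩, ⟨C, fun t ht e _ y _ => ?_⟩, ?_⟩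
  · refine ((h.sw (idx e)).contDiffOn_Gt.mono (prod_mono subset_rfl (subset_univ _))).congr
      fun p hp => ?_
    rw [hg p.1 hp.1]
  · rw [hg t ht]
    exact (main_flow (h.sw (idx e)) ht y v w).congr (fun s hs => by rw [hg s hs]) (by rw [hg t ht])
  · rw [hg t ht]
    exact main_scal h hR _ ht y
  · rintro ⟨ε, hε, g', hg', heq⟩
    have he : c (false, false) ∈ atlas EE M := by
      rw [hat]
      exact mem_range_self _
    have h0 : (0 : EE) ∈ (c (false, false)).target := by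
      rw [htar]
      exact mem_univ _
    have hsub : Icc 0 T ⊆ Ico 0 (T + ε) := fun t ht => ⟨ht.1, by linarith [ht.2]⟩
    have hc : ContinuousOn (fun t => (g' t).g (c (false, false)) 0 (ee 6) (ee 6)) (Icc 0 T) :=
      fun t ht => ((hg'.flow _ he 0 h0 t (hsub ht) _ _).continuousWithinAt).mono hsub
    obtain ⟨t₀, ht₀, hmin⟩ := isCompact_Icc.exists_isMinOn (nonempty_Icc.2 hT.le) hc
    have hp : 0 < (g' t₀).g (c (false, false)) 0 (ee 6) (ee 6) :=
      (g' t₀).pos _ he 0 h0 _ (by simp)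
    obtain ⟨t, ht, hlt⟩ := hd (√((g' t₀).g (c (false, false)) 0 (ee 6) (ee 6)) / 2)
      (by positivity)
    have h5 : (g' t₀).g (c (false, false)) 0 (ee 6) (ee 6) ≤
        (g' t).g (c (false, false)) 0 (ee 6) (ee 6) := hmin ⟨ht.1, ht.2.le⟩
    rw [heq t ht _ he 0 h0, hg t ht, hidx] at h5
    have h6 : (D.sw (false, false).1).Gt t 0 (ee 6) (ee 6) = 4 * Real.exp (D.β t 0) ^ 2 :=
      main_val D t
    rw [h6] at h5
    have h7 := Real.sq_sqrt hp.le
    have h8 := Real.exp_pos (D.β t 0)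
    nlinarith

theorem geom_main {T : ℝ} (hT : 0 < T) {A β B : Fn} (h : IsSol (Ico 0 T) A β B)
    (hR : ∃ C, ∀ t ∈ Ico 0 T, ∀ y ∈ Icc (0 : ℝ) 1, |Rf A β t y| ≤ C)
    (hd : ∀ ε > 0, ∃ t ∈ Ico 0 T, Real.exp (β t 0) < ε) : Counterexample := by
  obtain ⟨L, h1, h2, h3⟩ := exists_L hT (sm_chi (ti_Ico hT) h.smA h.smβ h.smB)
  obtain ⟨C, hC⟩ := hR
  exact main_geom (D := ⟨A, β, B, L⟩) ⟨hT, h.smA, h.smβ, h.smB, h1, h.eqA, h.eqβ, h.eqB, h2, h3⟩
    hC hd

end

end Vale.Agent.P244.G
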