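import Vale.Agent.P244.G.Defs

/-!
P244 G/MfdA (TASK): the sphere as a one point compactification with two charts.  Prefix helper names by `mfa_`.
`j : OnePoint V → OnePoint V`, `j ∞ = ↑0`, `j ↑v = if v = 0 then ∞ else ↑((‖v‖ ^ 2)⁻¹ • v)` is an involution.  Continuity: at `∞` use `OnePoint.continuousAt_infty'` (`‖v‖ → ∞` along `coclosedCompact = cocompact`, `tendsto_norm_cocompact_atTop`, the norm of the image is `‖v‖⁻¹`);
at `↑v`, `v ≠ 0`, `OnePoint.continuousAt_coe` and eventual equality; at `↑0`: `OnePoint.nhds_infty_eq` / `OnePoint.hasBasis_nhds_infty`, a compact set is bounded, (or `nhdsWithin {0}ᶜ ⊔ pure 0`, `Metric.cobounded_eq_cocompact`, `tendsto_norm_atTop_iff_cobounded`).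
`c false = (OnePoint.isOpenEmbedding_coe.toOpenPartialHomeomorph _).symm`, `c true = J.transOpenPartialHomeomorph (c false)` with the homeomorphism `J` given by `j`.
-/

namespace Vale.Agent.P244.G

open scoped ContDiff Topology RealInnerProductSpace
open Set Filter Vale.Agent.P255

noncomputable section

theorem mfa_norm {V : Type} [NormedAddCommGroup V] [NormedSpace ℝ V] (v : V) :
    ‖(‖v‖ ^ 2)⁻¹ • v‖ = ‖v‖⁻¹ := by
  rw [norm_smul, norm_inv, norm_pow, norm_norm]
  rcases eq_or_ne ‖v‖ 0 with h | h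
  · simp [h]
  · field_simp

theorem mfa_ex (V : Type) [NormedAddCommGroup V] [NormedSpace ℝ V] [ProperSpace V] :
    ∃ j : OnePoint V → OnePoint V, Continuous j ∧ j OnePoint.infty = ((0 : V) : OnePoint V) ∧
      j ((0 : V) : OnePoint V) = OnePoint.infty ∧
      ∀ v : V, v ≠ 0 → j v = (((‖v‖ ^ 2)⁻¹ • v : V) : OnePoint V) := by
  classical
  let g : V → OnePoint V := fun v =>
    if v = 0 then OnePoint.infty else (((‖v‖ ^ 2)⁻¹ • v : V) : OnePoint V)
  have g0 : g 0 = OnePoint.infty := if_pos rfl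
  have g1 : ∀ v : V, v ≠ 0 → g v = (((‖v‖ ^ 2)⁻¹ • v : V) : OnePoint V) := fun v hv => if_neg hv
  refine ⟨fun x => OnePoint.rec (C := fun _ => OnePoint V) ((0 : V) : OnePoint V) g x,
    (OnePoint.continuous_iff _).2 ⟨?_, ?_⟩, rfl, g0, g1⟩
  · show Tendsto g (coclosedCompact V) (𝓝 ((0 : V) : OnePoint V))
    rw [coclosedCompact_eq_cocompact]
    have h1 : Tendsto (fun v : V => ‖v‖) (cocompact V) atTop := tendsto_norm_cocompact_atTop
    have h2 : Tendsto (fun v : V => (‖v‖ ^ 2)⁻¹ • v) (cocompact V) (𝓝 0) := by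
      rw [tendsto_zero_iff_norm_tendsto_zero]
      simp only [mfa_norm]
      exact tendsto_inv_atTop_zero.comp h1
    refine ((OnePoint.continuous_coe.tendsto 0).comp h2).congr' ?_
    filter_upwards [h1.eventually (eventually_gt_atTop 0)] with v hv
    exact (g1 v (norm_pos_iff.1 hv)).symm
  · show Continuous g
    refine continuous_iff_continuousAt.2 fun v => ?_
    rcases eq_or_ne v 0 with rfl | hv
    · rw [← continuousWithinAt_compl_self, ContinuousWithinAt, g0]
      have h1 : Tendsto (fun v : V => (‖v‖ ^ 2)⁻¹ • v) (𝓝[≠] 0) (coclosedCompact V) := by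
        rw [coclosedCompact_eq_cocompact, ← Metric.cobounded_eq_cocompact,
          ← tendsto_norm_atTop_iff_cobounded]
        simp only [mfa_norm]
        exact tendsto_inv_nhdsGT_zero.comp tendsto_norm_nhdsNE_zero
      refine (OnePoint.tendsto_coe_infty.comp h1).congr' ?_
      filter_upwards [self_mem_nhdsWithin] with v hv
      exact (g1 v hv).symm
    · have h1 : ContinuousAt (fun v : V => (‖v‖ ^ 2)⁻¹ • v) v :=
        ((continuous_norm.continuousAt.pow 2).inv₀
          (pow_ne_zero 2 (norm_ne_zero_iff.2 hv))).smul continuousAt_id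
      refine (OnePoint.continuous_coe.continuousAt.comp h1).congr ?_
      filter_upwards [isOpen_ne.mem_nhds hv] with w hw
      exact (g1 w hw).symm

theorem mfa_ne {V : Type} [NormedAddCommGroup V] [NormedSpace ℝ V] {v : V} (hv : v ≠ 0) :
    (‖v‖ ^ 2)⁻¹ • v ≠ 0 :=
  smul_ne_zero (inv_ne_zero (pow_ne_zero 2 (norm_ne_zero_iff.2 hv))) hv

theorem mfa_inv {V : Type} [NormedAddCommGroup V] [NormedSpace ℝ V] {v : V} (hv : v ≠ 0) :
    (‖(‖v‖ ^ 2)⁻¹ • v‖ ^ 2)⁻¹ • (‖v‖ ^ 2)⁻¹ • v = v := by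
  rw [mfa_norm, inv_pow, inv_inv, smul_smul,
    mul_inv_cancel₀ (pow_ne_zero 2 (norm_ne_zero_iff.2 hv)), one_smul]

theorem exists_sph (V : Type) [NormedAddCommGroup V] [NormedSpace ℝ V] [ProperSpace V] :
    ∃ c : Bool → OpenPartialHomeomorph (OnePoint V) V, (∀ a, (c a).target = univ) ∧
      (∀ x, ∃ a, x ∈ (c a).source) ∧ (∀ a, OnePoint.infty ∈ (c a).source ↔ a = true) ∧
      (∀ a x, x ∈ (c a).source → x ∈ (c (!a)).source → c a x ≠ 0) ∧
      ∀ a v, v ≠ 0 → c (!a) ((c a).symm v) = (‖v‖ ^ 2)⁻¹ • v := by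
  obtain ⟨j, hj, j1, j0, jv⟩ := mfa_ex V
  have jj : Function.Involutive j := fun x => by
    induction x with
    | infty => rw [j1, j0]
    | coe v =>
      rcases eq_or_ne v 0 with rfl | hv
      · rw [j0, j1]
      · rw [jv v hv, jv _ (mfa_ne hv), mfa_inv hv]
  let J : OnePoint V ≃ₜ OnePoint V := ⟨jj.toPerm, hj, hj⟩
  let e : OpenPartialHomeomorph V (OnePoint V) :=
    OnePoint.isOpenEmbedding_coe.toOpenPartialHomeomorph _
  have e1 : ∀ v : V, e.symm v = v := fun v =>
    OnePoint.isOpenEmbedding_coe.toOpenPartialHomeomorph_left_inv _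
  have e2 : ∀ x, x ∈ e.target ↔ x ≠ OnePoint.infty := fun x => by
    rw [OnePoint.isOpenEmbedding_coe.toOpenPartialHomeomorph_target,
      OnePoint.ne_infty_iff_exists]
    rfl
  refine ⟨fun a => bif a then J.transOpenPartialHomeomorph e.symm else e.symm, fun a => ?_,
    fun x => ?_, fun a => ?_, fun a x h1 h2 => ?_, fun a v hv => ?_⟩
  · cases a <;> rfl
  · induction x with
    | infty =>
      refine ⟨true, (e2 (j _)).2 ?_⟩
      rw [j1]
      exact OnePoint.coe_ne_infty _
    | coe v => exact ⟨false, (e2 _).2 (OnePoint.coe_ne_infty _)⟩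
  · cases a
    · exact ⟨fun h => absurd rfl ((e2 _).1 h), fun h => absurd h Bool.false_ne_true⟩
    · refine ⟨fun _ => rfl, fun _ => (e2 (j _)).2 ?_⟩
      rw [j1]
      exact OnePoint.coe_ne_infty _
  · have h : x ≠ OnePoint.infty ∧ j x ≠ OnePoint.infty := by
      cases a
      · exact ⟨(e2 _).1 h1, (e2 (j x)).1 h2⟩
      · exact ⟨(e2 _).1 h2, (e2 (j x)).1 h1⟩
    obtain ⟨v, rfl⟩ := OnePoint.ne_infty_iff_exists.1 h.1
    have hv : v ≠ 0 := fun h0 => h.2 (by rw [h0, j0])
    cases a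
    · show e.symm v ≠ 0
      rwa [e1]
    · show e.symm (j v) ≠ 0
      rw [jv v hv, e1]
      exact mfa_ne hv
  · cases a
    · show e.symm (j v) = _
      rw [jv v hv, e1]
    · show e.symm (j v) = _
      rw [jv v hv, e1]

end

end Vale.Agent.P244.G
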