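import Vale.Agent.P244.G.Yf

/-!
P244 G/OdeA (TASK): global existence for `L_t = -χ (t, Yf y L)`.  Prefix helper names by `odea_`.
Fix `y` and `t₁ ∈ (0, T)`.  On the compact set `Icc 0 t₁ ×ˢ Icc 0 1` both `χ` and `dY χ` are bounded (`Sm.cont`, `Sm.dY`, `IsCompact.exists_bound_of_continuousOn`), so
`F t l = -χ t (Yf y l)` is bounded and Lipschitz in `l` on all of `ℝ` (derivative `-dY χ * 2 Y (1 - Y)`, `Sm.hasY`, `hasDerivAt_Yf_l`, `Yf_mem`, `lipschitzWith_of_nnnorm_deriv_le`), continuous in `t` (`Sm.sliceT`).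
`IsPicardLindelof` with a ball of radius `a ≥ bound * t₁` gives a solution on `Icc 0 t₁` (`IsPicardLindelof.exists_eq_forall_mem_Icc_hasDerivWithinAt₀`);
two solutions on `Icc 0 t₁`, `Icc 0 t₂` agree on the smaller interval (`ODE_solution_unique_of_mem_Icc_right`, or `ODE_solution_unique`).
`odea_glue`: choose `f t₁`; put `L t = f ((t + T) / 2) t`; near `t` within `Ico 0 T` it equals `f ((t + T) / 2)` (`HasDerivWithinAt.congr_of_eventuallyEq`, `mono_of_mem_nhdsWithin`).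
-/

namespace Vale.Agent.P244.G

open scoped ContDiff Topology RealInnerProductSpace
open Set Filter Vale.Agent.P255

noncomputable section

theorem odea_loc {F : ℝ → ℝ → ℝ} {b : ℝ} (hb : 0 < b) {K M : NNReal}
    (hF : ∀ t ∈ Icc 0 b, LipschitzWith K (F t) ∧ ∀ x, ‖F t x‖ ≤ M)
    (hc : ∀ x, ContinuousOn (F · x) (Icc 0 b)) :
    ∃ f : ℝ → ℝ, f 0 = 0 ∧ ∀ t ∈ Icc 0 b, HasDerivWithinAt f (F t (f t)) (Icc 0 b) t := by
  have h : IsPicardLindelof F (⟨0, le_rfl, hb.le⟩ : Icc (0 : ℝ) b) 0 (M * b.toNNReal) 0 M K :=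
    ⟨fun t ht => (hF t ht).1.lipschitzOnWith, fun x _ => hc x, fun t ht x _ => (hF t ht).2 x, by
      simp [hb.le]⟩
  exact h.exists_eq_forall_mem_Icc_hasDerivWithinAt₀

theorem odea_uniq {F : ℝ → ℝ → ℝ} {a b c : ℝ} {K : NNReal} {f g : ℝ → ℝ} (hb : a ≤ b) (hc : a ≤ c)
    (hF : ∀ t ∈ Icc 0 a, LipschitzWith K (F t)) (h0 : f 0 = g 0)
    (hf : ∀ t ∈ Icc 0 b, HasDerivWithinAt f (F t (f t)) (Icc 0 b) t)
    (hg : ∀ t ∈ Icc 0 c, HasDerivWithinAt g (F t (g t)) (Icc 0 c) t) : EqOn f g (Icc 0 a) := by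
  have key : ∀ {f : ℝ → ℝ} {b : ℝ}, a ≤ b →
      (∀ t ∈ Icc 0 b, HasDerivWithinAt f (F t (f t)) (Icc 0 b) t) → ContinuousOn f (Icc 0 a) ∧
        ∀ t ∈ Ico 0 a, HasDerivWithinAt f (F t (f t)) (Ici t) t := fun hb hf =>
    ⟨fun t ht => (hf t ⟨ht.1, ht.2.trans hb⟩).continuousWithinAt.mono (Icc_subset_Icc_right hb),
      fun t ht => (hf t ⟨ht.1, ht.2.le.trans hb⟩).mono_of_mem_nhdsWithin
        (Icc_mem_nhdsGE_of_mem ⟨ht.1, ht.2.trans_le hb⟩)⟩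
  exact ODE_solution_unique_of_mem_Icc_right (s := fun _ => univ)
    (fun t ht => (hF t (Ico_subset_Icc_self ht)).lipschitzOnWith) (key hb hf).1 (key hb hf).2
    (fun _ _ => trivial) (key hc hg).1 (key hc hg).2 (fun _ _ => trivial) h0

theorem odea_glue {F : ℝ → ℝ → ℝ} {T : ℝ} (hT : 0 < T)
    (hF : ∀ b ∈ Ioo 0 T, ∃ K M : NNReal,
      ∀ t ∈ Icc 0 b, LipschitzWith K (F t) ∧ ∀ x, ‖F t x‖ ≤ M)
    (hc : ∀ x, ContinuousOn (F · x) (Ico 0 T)) :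
    ∃ f : ℝ → ℝ, f 0 = 0 ∧ ∀ t ∈ Ico 0 T, HasDerivWithinAt f (F t (f t)) (Ico 0 T) t := by
  have ex : ∀ b, ∃ f : ℝ → ℝ, b ∈ Ioo 0 T →
      f 0 = 0 ∧ ∀ t ∈ Icc 0 b, HasDerivWithinAt f (F t (f t)) (Icc 0 b) t := fun b => by
    by_cases hb : b ∈ Ioo 0 T
    · obtain ⟨K, M, h⟩ := hF b hb
      obtain ⟨f, hf⟩ := odea_loc hb.1 h fun x => (hc x).mono (Icc_subset_Ico_right hb.2)
      exact ⟨f, fun _ => hf⟩
    · exact ⟨0, fun h => absurd h hb⟩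
  choose f hf using ex
  have hm : ∀ t ∈ Ico 0 T, (t + T) / 2 ∈ Ioo 0 T ∧ t < (t + T) / 2 := fun t ht =>
    ⟨⟨by linarith [ht.1], by linarith [ht.2]⟩, by linarith [ht.2]⟩
  have ag : ∀ b ∈ Ioo 0 T, ∀ s ∈ Icc 0 b, f ((s + T) / 2) s = f b s := fun b hb s hs => by
    obtain ⟨K, M, h⟩ := hF b hb
    have h1 := hm s ⟨hs.1, hs.2.trans_lt hb.2⟩
    exact odea_uniq h1.2.le hs.2 (fun t ht => (h t ⟨ht.1, ht.2.trans hs.2⟩).1)
      ((hf _ h1.1).1.trans (hf b hb).1.symm) (hf _ h1.1).2 (hf b hb).2 ⟨hs.1, le_rfl⟩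
  refine ⟨fun t => f ((t + T) / 2) t, (hf _ (hm 0 ⟨le_rfl, hT⟩).1).1, fun t ht => ?_⟩
  obtain ⟨h1, h2⟩ := hm t ht
  refine (((hf _ h1).2 t ⟨ht.1, h2.le⟩).congr (fun s hs => ag _ h1 s hs) rfl).mono_of_mem_nhdsWithin
    (mem_of_superset (inter_mem_nhdsWithin _ (Iio_mem_nhds h2)) fun s hs => ⟨hs.1.1, le_of_lt hs.2⟩)

theorem ode_exists {T : ℝ} (hT : 0 < T) {χ : Fn} (hχ : Sm (Ico 0 T) χ) :
    ∃ L : Fn, ∀ y ∈ Icc (0 : ℝ) 1, L 0 y = 0 ∧ ∀ t ∈ Ico 0 T,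
      HasDerivWithinAt (fun s => L s y) (-χ t (Yf y (L t y))) (Ico 0 T) t := by
  have ex : ∀ y, ∃ f : ℝ → ℝ, y ∈ Icc (0 : ℝ) 1 → f 0 = 0 ∧ ∀ t ∈ Ico 0 T,
      HasDerivWithinAt f (-χ t (Yf y (f t))) (Ico 0 T) t := fun y => by
    by_cases hy : y ∈ Icc (0 : ℝ) 1
    swap
    · exact ⟨0, fun h => absurd h hy⟩
    obtain ⟨f, hf⟩ := odea_glue (F := fun t l => -χ t (Yf y l)) hT (fun b hb => by
      have hs : Icc 0 b ×ˢ Icc (0 : ℝ) 1 ⊆ Ico 0 T ×ˢ Icc (0 : ℝ) 1 :=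
        prod_mono (Icc_subset_Ico_right hb.2) subset_rfl
      obtain ⟨M, hM⟩ := (isCompact_Icc.prod isCompact_Icc).exists_bound_of_continuousOn
        (hχ.cont.mono hs)
      obtain ⟨K, hK⟩ := (isCompact_Icc.prod isCompact_Icc).exists_bound_of_continuousOn
        ((hχ.dY (ti_Ico hT)).cont.mono hs)
      refine ⟨(K * 2).toNNReal, M.toNNReal, fun t ht => ⟨?_, fun l => ?_⟩⟩
      · have hd : ∀ l, HasDerivAt (fun l => -χ t (Yf y l))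
            (-(dY χ t (Yf y l) * (2 * (Yf y l * (1 - Yf y l))))) l := fun l =>
          (hasDerivWithinAt_univ.1 ((hχ.hasY ⟨ht.1, ht.2.trans_lt hb.2⟩ (Yf_mem hy l)).comp l
            (hasDerivAt_Yf_l hy l).hasDerivWithinAt fun l _ => Yf_mem hy l)).neg
        refine lipschitzWith_of_nnnorm_deriv_le (fun l => (hd l).differentiableAt) fun l => ?_
        rw [(hd l).deriv, ← NNReal.coe_le_coe, coe_nnnorm, norm_neg, norm_mul]
        refine le_trans ?_ (Real.le_coe_toNNReal _)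
        have h1 := hK (t, Yf y l) ⟨ht, Yf_mem hy l⟩
        obtain ⟨y0, y1⟩ := Yf_mem hy l
        refine mul_le_mul h1 ?_ (norm_nonneg _) ((norm_nonneg _).trans h1)
        rw [Real.norm_eq_abs, abs_le]
        constructor <;> nlinarith
      · rw [norm_neg]
        exact (hM (t, Yf y l) ⟨ht, Yf_mem hy l⟩).trans (Real.le_coe_toNNReal _))
      fun l => (hχ.sliceT (Yf_mem hy l)).continuousOn.neg
    exact ⟨f, fun _ => hf⟩
  choose f hf using ex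
  exact ⟨fun t y => f y t, fun y hy => hf y hy⟩

end

end Vale.Agent.P244.G
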