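import Vale.Agent.P244.G.Yf

/-!
P244 G/OdeB (TASK): the flow of a scalar equation on `[0, 1]` is differentiable in the initial value.  Prefix helper names by `odeb_`.
Fix `t₁ < T`; `K` bounds `|f|` and `|dY f|` on `Icc 0 t₁ ×ˢ Icc 0 1`, so `f s` is `K`-Lipschitz on `Icc 0 1` (`Convex.norm_image_sub_le_of_norm_hasDerivWithin_le`, `Sm.hasY`).
`flow_lip`: Gronwall (`dist_le_of_trajectories_ODE_of_mem`, or `norm_le_gronwallBound_of_norm_deriv_right_le` for the difference; `HasDerivWithinAt.mono_of_mem_nhdsWithin` gives right derivatives on `Ici s`).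
`flow_cont`: `|Y s z - Y t y| ≤ C |z - y| + |Y s y - Y t y|`.
`flow_deriv`: `a s = dY f s (Y s y)` is continuous on `Ico 0 T`, `Z s = exp (∫ 0..s a)`, `Z' = a Z` (right derivative, `intervalIntegral.integral_hasDerivWithinAt_right`; or extend `a` by `projIcc`),
`δ s = Y s z - Y s y - (z - y) Z s`, `δ 0 = 0`, `δ' = a δ + e`, `e = f s (Y s z) - f s (Y s y) - a (Y s z - Y s y)`, `|e| ≤ ε C |z - y|` for `z` near `y` (uniform continuity of `dY f` on the compact set, mean value inequality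
`Convex.norm_image_sub_le_of_norm_hasDerivWithin_le` for `x ↦ f s x - a x` on the segment); Gronwall gives `|δ t| ≤ ε C' |z - y|`; `hasDerivWithinAt_iff_isLittleO`, `Asymptotics.isLittleO_iff`.
-/

namespace Vale.Agent.P244.G

open scoped ContDiff Topology RealInnerProductSpace
open Set Filter Vale.Agent.P255

noncomputable section

/-- The flow of `f` on `[0, 1]`. -/
structure Flow (T : ℝ) (f Y : Fn) : Prop where
  sm : Sm (Ico 0 T) f
  mem : ∀ t ∈ Ico 0 T, ∀ y ∈ Icc (0 : ℝ) 1, Y t y ∈ Icc (0 : ℝ) 1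
  init : ∀ y ∈ Icc (0 : ℝ) 1, Y 0 y = y
  eqn : ∀ t ∈ Ico 0 T, ∀ y ∈ Icc (0 : ℝ) 1,
    HasDerivWithinAt (fun s => Y s y) (f t (Y t y)) (Ico 0 T) t

variable {T : ℝ} {f Y : Fn}

theorem odeb_mv (h : Sm (Ico 0 T) f) {s x x' a ε : ℝ} (hs : s ∈ Ico 0 T) (hx : x ∈ Icc (0 : ℝ) 1)
    (hx' : x' ∈ Icc (0 : ℝ) 1) (hb : ∀ w ∈ uIcc x x', |dY f s w - a| ≤ ε) :
    |f s x' - f s x - a * (x' - x)| ≤ ε * |x' - x| := by
  have hsub : uIcc x x' ⊆ Icc 0 1 := uIcc_subset_Icc hx hx'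
  have h1 := Convex.norm_image_sub_le_of_norm_hasDerivWithin_le (f := fun w => f s w - a * w)
    (f' := fun w => dY f s w - a) (s := uIcc x x') (C := ε)
    (fun w hw => ((h.hasY hs (hsub hw)).mono hsub).sub
      (by simpa using ((hasDerivAt_id w).const_mul a).hasDerivWithinAt))
    hb (convex_uIcc x x') left_mem_uIcc right_mem_uIcc
  rw [Real.norm_eq_abs, Real.norm_eq_abs] at h1
  convert h1 using 2
  ring

theorem odeb_right (h : Flow T f Y) {s y : ℝ} (hs : s ∈ Ico 0 T) (hy : y ∈ Icc (0 : ℝ) 1) :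
    HasDerivWithinAt (fun s => Y s y) (f s (Y s y)) (Ici s) s :=
  (h.eqn s hs y hy).mono_of_mem_nhdsWithin (Ico_mem_nhdsGE_of_mem hs)

theorem odeb_cont (h : Flow T f Y) {y : ℝ} (hy : y ∈ Icc (0 : ℝ) 1) :
    ContinuousOn (fun s => Y s y) (Ico 0 T) := fun s hs => (h.eqn s hs y hy).continuousWithinAt

theorem odeb_dY (h : Flow T f Y) {t : ℝ} (ht : t ∈ Ico 0 T) :
    ContinuousOn (fun p : ℝ × ℝ => dY f p.1 p.2) (Ico 0 T ×ˢ Icc 0 1) :=
  (h.sm.dY (ti_Ico (ht.1.trans_lt ht.2))).cont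

theorem odeb_prim {a : ℝ → ℝ} {t : ℝ} (ht : 0 ≤ t) (ha : ContinuousOn a (Icc 0 t)) :
    ∃ A : ℝ → ℝ, (∀ s ∈ Icc 0 t, HasDerivAt A (a s) s) ∧ A 0 = 0 ∧ A t = ∫ s in (0 : ℝ)..t, a s := by
  have hc : Continuous fun s => a (projIcc 0 t ht s) :=
    ha.comp_continuous (continuous_subtype_val.comp continuous_projIcc) fun s => (projIcc 0 t ht s).2
  refine ⟨fun u => ∫ s in (0 : ℝ)..u, a (projIcc 0 t ht s), fun s hs => ?_, by simp, ?_⟩
  · have := (hc.integral_hasStrictDerivAt 0 s).hasDerivAt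
    rwa [projIcc_of_mem ht hs] at this
  · refine intervalIntegral.integral_congr fun s hs => ?_
    rw [uIcc_of_le ht] at hs
    simp only [projIcc_of_mem ht hs]

theorem flow_lip (h : Flow T f Y) {t₁ : ℝ} (ht : t₁ ∈ Ico 0 T) : ∃ C : ℝ, 0 ≤ C ∧
    ∀ s ∈ Icc 0 t₁, ∀ y ∈ Icc (0 : ℝ) 1, ∀ z ∈ Icc (0 : ℝ) 1, |Y s z - Y s y| ≤ C * |z - y| := by
  have hsub : Icc 0 t₁ ⊆ Ico 0 T := Icc_subset_Ico_right ht.2
  obtain ⟨K, hK⟩ := (isCompact_Icc.prod isCompact_Icc).exists_bound_of_continuousOn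
    ((odeb_dY h ht).mono (prod_mono hsub subset_rfl))
  have hK0 : 0 ≤ K := (norm_nonneg _).trans (hK (0, 0) ⟨⟨le_rfl, ht.1⟩, le_rfl, zero_le_one⟩)
  refine ⟨Real.exp (K * t₁), (Real.exp_pos _).le, fun s hs y hy z hz => ?_⟩
  have h1 := norm_le_gronwallBound_of_norm_deriv_right_le (f := fun s => Y s z - Y s y)
    (f' := fun s => f s (Y s z) - f s (Y s y)) (δ := |z - y|) (K := K) (ε := 0) (a := 0) (b := t₁)
    (((odeb_cont h hz).sub (odeb_cont h hy)).mono hsub)
    (fun σ hσ => (odeb_right h (hsub (Ico_subset_Icc_self hσ)) hz).sub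
      (odeb_right h (hsub (Ico_subset_Icc_self hσ)) hy))
    (by rw [h.init z hz, h.init y hy, Real.norm_eq_abs]) (fun σ hσ => by
      have hσ' := hsub (Ico_subset_Icc_self hσ)
      have m1 := h.mem σ hσ' y hy
      have m2 := h.mem σ hσ' z hz
      have := odeb_mv (a := 0) (ε := K) h.sm hσ' m1 m2 fun w hw => by
        simpa using hK (σ, w) ⟨Ico_subset_Icc_self hσ, uIcc_subset_Icc m1 m2 hw⟩
      simpa using this) s hs
  rw [gronwallBound_ε0, Real.norm_eq_abs, sub_zero, mul_comm] at h1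
  refine h1.trans (mul_le_mul_of_nonneg_right (Real.exp_le_exp.2 ?_) (abs_nonneg _))
  exact mul_le_mul_of_nonneg_left hs.2 hK0

theorem flow_cont (h : Flow T f Y) :
    ContinuousOn (fun p : ℝ × ℝ => Y p.1 p.2) (Ico 0 T ×ˢ Icc 0 1) := by
  rintro ⟨t, y⟩ ⟨ht, hy⟩
  have h1 : t < (t + T) / 2 := by linarith [ht.2]
  obtain ⟨C, -, hC⟩ := flow_lip h (t₁ := (t + T) / 2) ⟨ht.1.trans h1.le, by linarith [ht.2]⟩
  have h2 : ContinuousWithinAt (fun p : ℝ × ℝ => Y p.1 y) (Ico 0 T ×ˢ Icc 0 1) (t, y) :=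
    ContinuousWithinAt.comp (f := Prod.fst) (g := fun s => Y s y) (odeb_cont h hy t ht)
      continuousWithinAt_fst fun p hp => hp.1
  have h3 : Tendsto (fun p : ℝ × ℝ => Y p.1 p.2 - Y p.1 y) (𝓝[Ico 0 T ×ˢ Icc 0 1] (t, y))
      (𝓝 0) := by
    have h4 : Continuous fun p : ℝ × ℝ => C * |p.2 - y| := by fun_prop
    refine squeeze_zero_norm' ?_ ((h4.tendsto' (t, y) 0 (by simp)).mono_left nhdsWithin_le_nhds)
    filter_upwards [self_mem_nhdsWithin, mem_nhdsWithin_of_mem_nhds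
      (continuous_fst.continuousAt.eventually (gt_mem_nhds h1))] with p hp hp'
    exact hC p.1 ⟨hp.1.1, le_of_lt hp'⟩ y hy p.2 hp.2
  have h5 := h3.add h2
  simp only [sub_add_cancel, zero_add] at h5
  exact h5

theorem flow_deriv (h : Flow T f Y) {t y : ℝ} (ht : t ∈ Ico 0 T) (hy : y ∈ Icc (0 : ℝ) 1) :
    HasDerivWithinAt (Y t) (Real.exp (∫ s in (0 : ℝ)..t, dY f s (Y s y))) (Icc 0 1) y := by
  have hsub : Icc 0 t ⊆ Ico 0 T := Icc_subset_Ico_right ht.2
  have ha : ContinuousOn (fun s => dY f s (Y s y)) (Icc 0 t) :=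
    (odeb_dY h ht).comp (f := fun s => (s, Y s y))
      (continuousOn_id.prodMk ((odeb_cont h hy).mono hsub))
      fun s hs => ⟨hsub hs, h.mem s (hsub hs) y hy⟩
  obtain ⟨A, hA, hA0, hAt⟩ := odeb_prim ht.1 ha
  have hE : ∀ s ∈ Icc 0 t, HasDerivAt (fun s => Real.exp (-A s))
      (Real.exp (-A s) * -dY f s (Y s y)) s := fun s hs => (hA s hs).neg.exp
  have hEc : ContinuousOn (fun s => Real.exp (-A s)) (Icc 0 t) := fun s hs =>
    (hE s hs).continuousAt.continuousWithinAt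
  obtain ⟨M, hM⟩ := isCompact_Icc.exists_bound_of_continuousOn hEc
  have hM0 : 0 ≤ M := (norm_nonneg _).trans (hM 0 ⟨le_rfl, ht.1⟩)
  obtain ⟨C, hC0, hC⟩ := flow_lip h ht
  have hu := Metric.uniformContinuousOn_iff.1
    ((isCompact_Icc.prod isCompact_Icc).uniformContinuousOn_of_continuous
      ((odeb_dY h ht).mono (prod_mono hsub subset_rfl)))
  have ht0 := ht.1
  rw [← hAt, hasDerivWithinAt_iff_isLittleO, Asymptotics.isLittleO_iff]
  intro c hc
  have hQ : 0 < C * M * t * Real.exp (A t) + 1 := by positivity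
  obtain ⟨δ, hδ, hd⟩ := hu _ (div_pos hc hQ)
  have h4 : Continuous fun z : ℝ => C * |z - y| := by fun_prop
  filter_upwards [self_mem_nhdsWithin, mem_nhdsWithin_of_mem_nhds
    ((h4.tendsto' y 0 (by simp)).eventually (gt_mem_nhds hδ))] with z hz hz'
  have h1 := norm_image_sub_le_of_norm_deriv_right_le_segment
    (f := fun s => (Y s z - Y s y) * Real.exp (-A s))
    (f' := fun s => (f s (Y s z) - f s (Y s y) - dY f s (Y s y) * (Y s z - Y s y)) *
      Real.exp (-A s))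
    (C := c / (C * M * t * Real.exp (A t) + 1) * (C * |z - y|) * M) (a := 0) (b := t)
    ((((odeb_cont h hz).sub (odeb_cont h hy)).mono hsub).mul hEc)
    (fun s hs => by
      have hs' := Ico_subset_Icc_self hs
      refine (((odeb_right h (hsub hs') hz).sub (odeb_right h (hsub hs') hy)).mul
        (hE s hs').hasDerivWithinAt).congr_deriv ?_
      simp only [Pi.sub_apply]
      ring)
    (fun s hs => by
      have hs' := Ico_subset_Icc_self hs
      have m1 := h.mem s (hsub hs') y hy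
      have m2 := h.mem s (hsub hs') z hz
      have h2 := hC s hs' y hy z hz
      have h3 := odeb_mv (a := dY f s (Y s y)) (ε := c / (C * M * t * Real.exp (A t) + 1)) h.sm
        (hsub hs') m1 m2 fun w hw => (hd (s, w) ⟨hs', uIcc_subset_Icc m1 m2 hw⟩ (s, Y s y)
          ⟨hs', m1⟩ (by
            rw [Prod.dist_eq, dist_self, Real.dist_eq, max_eq_right (abs_nonneg _)]
            exact ((abs_sub_left_of_mem_uIcc hw).trans h2).trans_lt hz')).le
      rw [norm_mul]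
      exact mul_le_mul (h3.trans (mul_le_mul_of_nonneg_left h2 (div_pos hc hQ).le)) (hM s hs')
        (norm_nonneg _) (by positivity)) t ⟨ht.1, le_rfl⟩
  simp only [h.init z hz, h.init y hy, hA0, neg_zero, Real.exp_zero, mul_one, sub_zero] at h1
  have e : Y t z - Y t y - (z - y) • Real.exp (A t) =
      ((Y t z - Y t y) * Real.exp (-A t) - (z - y)) * Real.exp (A t) := by
    rw [Real.exp_neg, smul_eq_mul]
    field_simp
  rw [e, norm_mul, Real.norm_of_nonneg (Real.exp_pos _).le, Real.norm_eq_abs (z - y)]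
  refine (mul_le_mul_of_nonneg_right h1 (Real.exp_pos _).le).trans ?_
  have h5 : c / (C * M * t * Real.exp (A t) + 1) * (C * M * t * Real.exp (A t)) ≤ c := by
    rw [div_mul_eq_mul_div, div_le_iff₀ hQ]
    linarith
  linarith [mul_le_mul_of_nonneg_right h5 (abs_nonneg (z - y))]

end

end Vale.Agent.P244.G
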