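import Vale.Agent.P244.G.OdeA
import Vale.Agent.P244.G.OdeB
import Vale.Agent.P244.Kit.PI

/-!
P244 G/OdeC (TASK): smoothness of the flow and the function `L`.  Prefix helper names by `odec_`.
`flow_sm`: induction on `k` for `ContDiffOn ℝ k (uncurry Y)` (`contDiffOn_infty`, start `flow_cont`, `contDiffOn_zero`); the two derivatives `f t (Y t y)` and `exp (∫ 0..t, dY f s (Y s y))` are `C^k` (`ContDiffOn.comp`, `Sm.dY`, `pi_fst`), `pd_succ`.
`exists_L`: `L` from `ode_exists`, `Y t y = Yf y (L t y)` is the flow of `f t x = -2 x (1 - x) χ t x` (`hasDerivAt_Yf_l`, chain rule; `Yf y 0 = y`), hence smooth.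
`L t y = ∫ s in 0..t, -χ s (Y s y)` (`intervalIntegral.integral_eq_sub_of_hasDeriv_right`, continuity of the integrand), smooth by `pi_fst` for every `k`, `Sm.congr`.
Positivity: `hasY_Yf` and `flow_deriv` are derivatives of the same function within `Icc 0 1` (`uniqueDiffOn_Icc`, `HasDerivWithinAt.derivWithin`), `Real.exp_pos`, `Dn_pos`, `pos_of_mul_pos_left`.
-/

namespace Vale.Agent.P244.G

open scoped ContDiff Topology RealInnerProductSpace
open Set Filter Vale.Agent.P255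

noncomputable section

theorem odec_comp {T : ℝ} {u Y : Fn} (hu : Sm (Ico 0 T) u)
    (hm : ∀ t ∈ Ico 0 T, ∀ y ∈ Icc (0 : ℝ) 1, Y t y ∈ Icc (0 : ℝ) 1) (k : ℕ)
    (hY : ContDiffOn ℝ k (fun p : ℝ × ℝ => Y p.1 p.2) (Ico 0 T ×ˢ Icc 0 1)) :
    ContDiffOn ℝ k (fun p : ℝ × ℝ => u p.1 (Y p.1 p.2)) (Ico 0 T ×ˢ Icc 0 1) := by
  have h1 : ContDiffOn ℝ k (fun p : ℝ × ℝ => u p.1 p.2) (Ico 0 T ×ˢ Icc 0 1) :=
    contDiffOn_infty.1 hu k
  exact h1.comp (f := fun p : ℝ × ℝ => ((p.1, Y p.1 p.2) : ℝ × ℝ))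
    (contDiff_fst.contDiffOn.prodMk hY) fun p hp => ⟨hp.1, hm p.1 hp.1 p.2 hp.2⟩

theorem flow_sm {T : ℝ} (hT : 0 < T) {f Y : Fn} (h : Flow T f Y) : Sm (Ico 0 T) Y := by
  have hI : TI (Ico 0 T) := ti_Ico hT
  refine contDiffOn_infty.2 fun k => ?_
  induction k with
  | zero => exact contDiffOn_zero.2 (flow_cont h)
  | succ k ih =>
    have h1 := odec_comp h.sm h.mem k ih
    have h2 := odec_comp (h.sm.dY hI) h.mem k ih
    have h3 := pi_fst hI.conv (convex_Icc 0 1) hI.uniq (uniqueDiffOn_Icc zero_lt_one)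
      (a := 0) ⟨le_rfl, hT⟩ k h2
    exact pd_succ hI.conv (convex_Icc 0 1) hI.uniq (uniqueDiffOn_Icc zero_lt_one)
      (u := fun p : ℝ × ℝ => Y p.1 p.2) (ut := fun p => f p.1 (Y p.1 p.2))
      (uy := fun p => Real.exp (∫ s in (0 : ℝ)..p.1, dY f s (Y s p.2)))
      (fun p hp => h.eqn p.1 hp.1 p.2 hp.2) (fun p hp => flow_deriv h hp.1 hp.2) k h1 h3.exp

theorem exists_L {T : ℝ} (hT : 0 < T) {χ : Fn} (hχ : Sm (Ico 0 T) χ) :
    ∃ L : Fn, Sm (Ico 0 T) L ∧ (∀ t ∈ Ico 0 T, ∀ y ∈ Icc (0 : ℝ) 1,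
      HasDerivWithinAt (fun s => L s y) (-χ t (Yf y (L t y))) (Ico 0 T) t) ∧
      ∀ t ∈ Ico 0 T, ∀ y ∈ Icc (0 : ℝ) 1, 0 < 1 + 2 * (y * (1 - y)) * dY L t y := by
  have hI : TI (Ico 0 T) := ti_Ico hT
  obtain ⟨L, hL⟩ := ode_exists hT hχ
  have hf : Sm (Ico 0 T) fun t x => 2 * (x * (1 - x)) * -χ t x :=
    (contDiffOn_const.mul (contDiff_snd.contDiffOn.mul
      (contDiffOn_const.sub contDiff_snd.contDiffOn))).mul (ContDiffOn.neg hχ)
  have hF : Flow T (fun t x => 2 * (x * (1 - x)) * -χ t x) fun t y => Yf y (L t y) := by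
    refine ⟨hf, fun t _ y hy => Yf_mem hy _, fun y hy => ?_, fun t ht y hy => ?_⟩
    · simp [(hL y hy).1, Yf, Dn]
    · exact (hasDerivAt_Yf_l hy (L t y)).comp_hasDerivWithinAt t ((hL y hy).2 t ht)
  have hY := flow_sm hT hF
  have hg : Sm (Ico 0 T) fun t y => -χ t (Yf y (L t y)) :=
    ContDiffOn.neg (sm_comp hχ hY hF.mem)
  have hint : Sm (Ico 0 T) fun t y => ∫ s in (0 : ℝ)..t, -χ s (Yf y (L s y)) :=
    contDiffOn_infty.2 fun k => pi_fst hI.conv (convex_Icc 0 1) hI.uniq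
      (uniqueDiffOn_Icc zero_lt_one) (a := 0) ⟨le_rfl, hT⟩ k (contDiffOn_infty.1 hg k)
  have hLs : Sm (Ico 0 T) L := by
    refine hint.congr fun t ht y hy => ?_
    have sub : uIcc 0 t ⊆ Ico 0 T := ordConnected_Ico.uIcc_subset ⟨le_rfl, hT⟩ ht
    have hc : ContinuousOn (fun s => L s y) (Ico 0 T) := fun s hs =>
      ((hL y hy).2 s hs).continuousWithinAt
    have e := intervalIntegral.integral_eq_sub_of_hasDeriv_right (f := fun s => L s y)
      (f' := fun s => -χ s (Yf y (L s y))) (hc.mono sub) (fun x hx => ?_)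
      ((hg.sliceT hy).continuousOn.mono sub).intervalIntegrable
    · rw [e, (hL y hy).1, sub_zero]
    · exact (((hL y hy).2 x (sub (Ioo_subset_Icc_self hx))).hasDerivAt (Filter.mem_of_superset
        (Ioo_mem_nhds hx.1 hx.2) (Ioo_subset_Icc_self.trans sub))).hasDerivWithinAt
  refine ⟨L, hLs, fun t ht y hy => (hL y hy).2 t ht, fun t ht y hy => ?_⟩
  have a1 := (hasY_Yf hy (hLs.hasY ht hy)).derivWithin (uniqueDiffOn_Icc zero_lt_one y hy)
  have a2 := (flow_deriv hF ht hy).derivWithin (uniqueDiffOn_Icc zero_lt_one y hy)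
  have a3 := a2.symm.trans a1
  have hp : 0 < Real.exp (2 * L t y) / Dn y (L t y) ^ 2 :=
    div_pos (Real.exp_pos _) (pow_pos (Dn_pos hy _) 2)
  exact (mul_pos_iff_of_pos_left hp).1 (a3 ▸ Real.exp_pos _)

end

end Vale.Agent.P244.G
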